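import Vale.Agent.P231.S2II.ValE
import Vale.Agent.P231.S2I.DegC

/-!
# P231, stage 2, S2-II (15): the sphere integrals of `b₀` are `± 2 κ`
-/

set_option maxSynthPendingDepth 3
set_option linter.unusedSectionVars false
set_option linter.unusedVariables false

open Bundle Manifold Set Filter Module MeasureTheory
open scoped ContDiff Manifold Topology

namespace Vale.Agent.P231.S2II

noncomputable section

open Vale.Agent.P234 Vale.Agent.P231 Vale.Agent.P231.Fm Vale.Agent.P231.W Vale.Agent.P231.WR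

variable {E : Type*} [NormedAddCommGroup E] [NormedSpace ℝ E]
  {M : Type*} [MetricSpace M] [ChartedSpace E M]
  [RiemannianBundle (fun x : M => TangentSpace 𝓘(ℝ, E) x)]
  {e : ∀ x : M, TangentSpace 𝓘(ℝ, E) x → M}
  [FiniteDimensional ℝ E] [IsManifold 𝓘(ℝ, E) ∞ M]
  [IsContMDiffRiemannianBundle 𝓘(ℝ, E) ∞ E (fun x : M => TangentSpace 𝓘(ℝ, E) x)]
  [CompactSpace M] [ConnectedSpace M] [IsRiemannianManifold 𝓘(ℝ, E) M]
  (F : Facts e) {D : ℝ} (hD : 0 < D) (hB : InjGE e D) (hdiam : ∀ p q : M, dist p q ≤ D)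
  {n : ℕ}

section Main

variable {f : Fr e D (2 * n + 1)}
  {Pi : TangentSpace 𝓘(ℝ, E) (foot f.v) →
    TangentSpace 𝓘(ℝ, E) (foot f.v) →L[ℝ] TangentSpace 𝓘(ℝ, E) (foot f.v)}
  {o : TangentSpace 𝓘(ℝ, E) (foot f.v) → Fm.Lam (TangentSpace 𝓘(ℝ, E) (foot f.v))}
  {ρ : TangentSpace 𝓘(ℝ, E) (foot f.v) → ℝ} {r₀ : ℝ}

/-- the form `b₀` on the sphere of a frame over the base point -/
theorem b0P_val (hl : ∀ x y : M, dist x y = D → finrank ℝ (H775.Pl e D x y) = 2 * n + 2)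
    (hJ : FE.LineP e D (foot f.v) n Pi o) (hρ : WE.Rho e D (foot f.v) ρ r₀) (a : ℝ)
    {y : Eul (2 * n + 1)} (hy : y ≠ 0) :
    (L3.b0P F hD hB hdiam (FE.FF F hD hB hdiam hl hJ hρ a)).val (fam F hD hB hdiam f) y =
      (∫ t in (0 : ℝ)..(2 * Real.pi), Real.sin t ^ (2 * n)) •
        ((a * ((2 * n + 1).factorial : ℝ)) •
        ((‖y‖ ^ (2 * n + 1))⁻¹ • iprod y (tf f o))) := by
  rw [b0P_eq, WR.kf, H584.KT_val _ _ (fam_at F hD hB hdiam f hy)]
  simp only [co_val F hD hB hdiam hl hJ hρ a hy]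
  rw [intervalIntegral.integral_smul_const]

/-- the sphere integral of `b₀` on a frame over the base point -/
theorem kf_b0P (hl : ∀ x y : M, dist x y = D → finrank ℝ (H775.Pl e D x y) = 2 * n + 2)
    (hJ : FE.LineP e D (foot f.v) n Pi o) (hρ : WE.Rho e D (foot f.v) ρ r₀) (a : ℝ) :
    kf F hD hB hdiam (L3.b0P F hD hB hdiam (FE.FF F hD hB hdiam hl hJ hρ a)) f =
      (∫ t in (0 : ℝ)..(2 * Real.pi), Real.sin t ^ (2 * n)) *
        ((a * ((2 * n + 1).factorial : ℝ)) *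
        (area (2 * n + 1) * evalForm (tf f o) (bas (2 * n + 1)))) := by
  rw [kf_eq]
  have h1 : ∀ y : Eul (2 * n + 1), evalForm (Fm.dx (fderiv ℝ (rct (2 * n + 1)) y) *
      (L3.b0P F hD hB hdiam (FE.FF F hD hB hdiam hl hJ hρ a)).val
        (fam F hD hB hdiam f) y) (bas (2 * n + 1)) =
      ((∫ t in (0 : ℝ)..(2 * Real.pi), Real.sin t ^ (2 * n)) *
        (a * ((2 * n + 1).factorial : ℝ))) *
      evalForm (Fm.dx (fderiv ℝ (rct (2 * n + 1)) y) *
        ((‖y‖ ^ (2 * n + 1))⁻¹ • iprod y (tf f o))) (bas (2 * n + 1)).toBasis := fun y => by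
    rw [OrthonormalBasis.coe_toBasis]
    by_cases hy : y = 0
    · subst hy
      have h8 : fderiv ℝ (rct (2 * n + 1)) 0 = 0 := by
        have h9 : rct (2 * n + 1) =ᶠ[𝓝 0] fun _ => 0 := rct_near_zero _
        rw [h9.fderiv_eq, fderiv_const_apply]
      rw [h8, map_zero, zero_mul, zero_mul, ← evalL_apply, map_zero, mul_zero]
    · rw [b0P_val F hD hB hdiam hl hJ hρ a hy, smul_smul, mul_smul_comm, ← evalL_apply, map_smul,
        evalL_apply, smul_eq_mul]
  simp only [h1]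
  rw [integral_const_mul, integral_solid (m := 2 * n + 1) (by omega) (cut_rct _), ← area,
    OrthonormalBasis.coe_toBasis, mul_assoc]

include F hD hB hdiam in
theorem Pi_cbT (hJ : FE.LineP e D (foot f.v) n Pi o) {y : Eul (2 * n + 1)} (hy : ‖y‖ = 1) :
    Pi (tv f.v) (cbT f y) = cbT f y := by
  have hy0 : y ≠ 0 := FE.ne_zero_of_unit hy
  have h1 : uu f (y, Real.pi / 2) = cbT f y := by
    rw [uu, Real.cos_pi_div_two, Real.sin_pi_div_two, zero_smul, zero_add, one_smul, nz, hy,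
      inv_one, one_smul]
  have h2 := e_uu F hD hB hdiam f (q := (y, Real.pi / 2)) hy0
  rw [h1] at h2
  exact (hJ.cut _ _ (norm_tv f.v) (by rw [(cbT f).norm_map, hy])).1 h2.symm

include F hD hB hdiam in
/-- the top degree form on the standard basis -/
theorem abs_tf (hJ : FE.LineP e D (foot f.v) n Pi o) :
    |evalForm (tf f o) (bas (2 * n + 1))| = 1 := by
  have h1 : evalForm (tf f o) (bas (2 * n + 1)) = evalForm (k := 2 * n + 2) (o (tv f.v))
      (Fin.cons (tv f.v) fun i : Fin (2 * n + 1) => cbT f (bas (2 * n + 1) i)) := by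
    rw [tf, evalForm_pull, evalForm_apply, evalForm_apply, cont_succ]
    rfl
  have hn : ∀ i, ‖cbT f (bas (2 * n + 1) i)‖ = 1 := fun i => by
    rw [(cbT f).norm_map]
    exact (bas (2 * n + 1)).norm_eq_one i
  rw [h1]
  refine abs_evalForm_leaf hJ.os.sp hJ.os.or (FE.ne_zero_of_unit (norm_tv f.v)) ?_ ?_
  · refine ⟨fun i => ?_, fun i j hij => ?_⟩
    · refine Fin.cases ?_ (fun i => ?_) i
      · exact norm_tv f.v
      · exact hn i
    · revert hij
      refine Fin.cases ?_ (fun i => ?_) i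
      · refine Fin.cases (fun h => absurd rfl h) (fun j h => ?_) j
        exact inner_tv_cbT f _
      · refine Fin.cases (fun h => ?_) (fun j h => ?_) j
        · change inner ℝ (cbT f (bas (2 * n + 1) i)) (tv f.v) = (0 : ℝ)
          rw [real_inner_comm]
          exact inner_tv_cbT f _
        · change inner ℝ (cbT f (bas (2 * n + 1) i)) (cbT f (bas (2 * n + 1) j)) = (0 : ℝ)
          rw [(cbT f).inner_map_map]
          exact (bas (2 * n + 1)).orthonormal.2 fun h' => h (congrArg Fin.succ h')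
  · refine Fin.cases ?_ (fun i => ?_)
    · exact hJ.os.sp.self _ (FE.ne_zero_of_unit (norm_tv f.v))
    · exact Pi_cbT F hD hB hdiam hJ ((bas (2 * n + 1)).norm_eq_one i)

/-- **the sphere integrals over the base point** -/
theorem abs_kf_foot (hl : ∀ x y : M, dist x y = D → finrank ℝ (H775.Pl e D x y) = 2 * n + 2)
    (hJ : FE.LineP e D (foot f.v) n Pi o) (hρ : WE.Rho e D (foot f.v) ρ r₀) (a : ℝ) :
    |kf F hD hB hdiam (L3.b0P F hD hB hdiam (FE.FF F hD hB hdiam hl hJ hρ a)) f| =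
      2 * (|a * ((2 * n + 1).factorial : ℝ)| * area (2 * n + 2)) := by
  rw [kf_b0P, abs_mul, abs_mul, abs_mul (area _), abs_tf F hD hB hdiam hJ, mul_one,
    abs_of_pos (sin_integral_pos n), abs_of_pos (area_pos (m := 2 * n + 1) (by omega)),
    mul_left_comm, area_rec]
  ring

end Main

theorem exists_foot [Nontrivial E] (p : M) : ∃ v : UT E M, foot v = p := by
  have hnt : Nontrivial (TangentSpace 𝓘(ℝ, E) p) := inferInstanceAs (Nontrivial E)
  obtain ⟨u, hu⟩ := exists_norm_eq (TangentSpace 𝓘(ℝ, E) p) zero_le_one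
  exact ⟨W.mk (E := E) p u hu, rfl⟩

section Value

variable (h2 : 2 ≤ finrank ℝ E)
  (hl : ∀ x y : M, dist x y = D → finrank ℝ (H775.Pl e D x y) = 2 * n + 2) {p : M}
  {Pi : TangentSpace 𝓘(ℝ, E) p → TangentSpace 𝓘(ℝ, E) p →L[ℝ] TangentSpace 𝓘(ℝ, E) p}
  {o : TangentSpace 𝓘(ℝ, E) p → Fm.Lam (TangentSpace 𝓘(ℝ, E) p)}
  {ρ : TangentSpace 𝓘(ℝ, E) p → ℝ} {r₀ : ℝ}
  (hJ : FE.LineP e D p n Pi o) (hρ : WE.Rho e D p ρ r₀)

/-- the integral of the angular form `psi` over the unit spheres of the planes -/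
def kappa (n : ℕ) (a : ℝ) : ℝ := |a * ((2 * n + 1).factorial : ℝ)| * area (2 * n + 2)

theorem kappa_pos {a : ℝ} (ha : a ≠ 0) : 0 < kappa n a :=
  mul_pos (abs_pos.2 (mul_ne_zero ha (by positivity))) (area_pos (by omega))

theorem isDeg_FF (a : ℝ) : Form.IsDeg (2 * n + 2) (FE.FF F hD hB hdiam hl hJ hρ a) :=
  DegC.ofWF (FE.FF_deg F hD hB hdiam hl hJ hρ a)

include h2 in
/-- **THE VALUE: the sphere integrals of `b₀` are `± 2 κ`, for all the frames** -/
theorem abs_kf_b0P (a : ℝ) (f : Fr e D (2 * n + 1)) :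
    |kf F hD hB hdiam (L3.b0P F hD hB hdiam (FE.FF F hD hB hdiam hl hJ hρ a)) f| =
      2 * kappa n a := by
  have : Nontrivial E := nontrivial_of_finrank_pos (R := ℝ) (by omega)
  obtain ⟨v, rfl⟩ := exists_foot (E := E) p
  obtain ⟨W, hW⟩ := exists_isLF F hD hB hdiam (l := 2 * n + 1) hl v
  rw [abs_kf F hD hB hdiam (l := 2 * n + 1) hl h2
    (b0P_isDeg F hD hB hdiam (l := 2 * n + 1) (by omega) (isDeg_FF F hD hB hdiam hl hJ hρ a))
    (b0P_d F hD hB hdiam (FE.FF_d F hD hB hdiam hl hJ hρ a)) f ⟨(v, W), hW⟩]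
  exact abs_kf_foot F hD hB hdiam (f := ⟨(v, W), hW⟩) hl hJ hρ a

include h2 in
/-- **`b₀` orients the fibres of the sphere bundle of `L`** -/
theorem orn_b0P {a : ℝ} (ha : a ≠ 0) : Orn F hD hB hdiam (l := 2 * n + 1)
    (L3.b0P F hD hB hdiam (FE.FF F hD hB hdiam hl hJ hρ a)) where
  deg := b0P_isDeg F hD hB hdiam (l := 2 * n + 1) (by omega) (isDeg_FF F hD hB hdiam hl hJ hρ a)
  closed := b0P_d F hD hB hdiam (FE.FF_d F hD hB hdiam hl hJ hρ a)
  ne := fun f hf => by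
    have h1 := abs_kf_b0P F hD hB hdiam h2 hl hJ hρ a f
    rw [hf, abs_zero] at h1
    have h3 := kappa_pos (n := n) ha
    linarith

end Value

/-- the fibre integral of the orienting form in terms of the frames -/
theorem SL_self_of {l : ℕ} [NeZero l]
    (hP : ∀ x y : M, dist x y = D → finrank ℝ (H775.Pl e D x y) = l + 1)
    {b : Form (dPr e D)} (hb : Orn F hD hB hdiam (l := l) b) (hl : Odd l) (h2 : 2 ≤ finrank ℝ E)
    {k : ℝ} (hk : ∀ f : Fr e D l, |kf F hD hB hdiam b f| = k) :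
    SL F hD hB hdiam hP hb hl b = k • 1 := by
  obtain ⟨k', hk'0, hk'⟩ := SL_self F hD hB hdiam hP hb hl h2
  refine Form.ext_val fun E' _ _ _ u x hu => ?_
  obtain ⟨f, hf, hfu⟩ := (bun_SL F hD hB hdiam hP hb hl).hq.lift hu
  have h3 := SL_val F hD hB hdiam hP hb hl b hf
  have h4 : (dUT E M).At (Fr.v ∘ f) x := (bun_SL F hD hB hdiam hP hb hl).hq.map hf
  have h5 : (k' • (1 : Form (dUT E M))).val (Fr.v ∘ f) x =
      kf F hD hB hdiam b (f x) • (1 : Lam E') := by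
    rw [← hk', h3, val_zero (isDeg_frb hb.deg) hf.1]
    rfl
  rw [Form.smul_val, Form.one_val h4] at h5
  have h6 : 0 < kf F hD hB hdiam b (f x) := hf.2.self_of_nhds
  have h7 := hk (f x)
  rw [abs_of_pos h6] at h7
  rw [hk', Form.smul_val, Form.smul_val, Form.one_val hu, h5, h7]

section Value2

variable (h2 : 2 ≤ finrank ℝ E)
  (hl : ∀ x y : M, dist x y = D → finrank ℝ (H775.Pl e D x y) = 2 * n + 2) {p : M}
  {Pi : TangentSpace 𝓘(ℝ, E) p → TangentSpace 𝓘(ℝ, E) p →L[ℝ] TangentSpace 𝓘(ℝ, E) p}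
  {o : TangentSpace 𝓘(ℝ, E) p → Fm.Lam (TangentSpace 𝓘(ℝ, E) p)}
  {ρ : TangentSpace 𝓘(ℝ, E) p → ℝ} {r₀ : ℝ}
  (hJ : FE.LineP e D p n Pi o) (hρ : WE.Rho e D p ρ r₀)

/-- **the fibre integral of `b₀` is `2 κ`** -/
theorem SL_b0P {a : ℝ} (ha : a ≠ 0) :
    SL F hD hB hdiam (l := 2 * n + 1) hl (orn_b0P F hD hB hdiam h2 hl hJ hρ ha) ⟨n, rfl⟩
      (L3.b0P F hD hB hdiam (FE.FF F hD hB hdiam hl hJ hρ a)) = (2 * kappa n a) • 1 :=
  SL_self_of F hD hB hdiam (l := 2 * n + 1) hl _ _ h2 (abs_kf_b0P F hD hB hdiam h2 hl hJ hρ a)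

end Value2

end

end Vale.Agent.P231.S2II
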