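import Vale.Agent.P231.S2II.Dim
import Vale.Agent.P231.WR.Th
import Vale.Agent.P231.WA.Inv
import Vale.Agent.P231.WF.Conn

/-!
# P231, stage 2, S2-II (6): the functional `I ∘ SI` on the space of pairs
-/

set_option maxSynthPendingDepth 3
set_option linter.unusedSectionVars false
set_option linter.unusedVariables false

open Bundle Manifold Set Filter Module MeasureTheory
open scoped ContDiff Manifold Topology

namespace Vale.Agent.P231.S2II

noncomputable section

open Vale.Agent.P234 Vale.Agent.P231 Vale.Agent.P231.Fm Vale.Agent.P231.W Vale.Agent.P231.WR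

section Gen

variable {B S Fr' : Type*} {DB : Dif B} {DS : Dif S} {DF : Dif Fr'}
variable {G : Type} [NormedAddCommGroup G] [InnerProductSpace ℝ G] [FiniteDimensional ℝ G]

theorem part_dx {X : Type*} {D : Dif X} (k : ℕ) (σ : Form (Co.SB D G)) :
    Form.part (k + 1) (Co.dx σ) = Co.dx (Form.part k σ) := by
  refine Form.ext_val fun E _ _ _ u x hu => ?_
  rw [Form.part_val, Co.dx, Co.dx, Form.mx_val, Form.mx_val]
  rcases (Co.supp_chf (D := D) (F := G)).d.out hu with h1 | h1
  · have h2 : (Co.PB D G).At u x := ⟨hu, h1⟩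
    rw [Form.pull_val _ _ h2, Form.pull_val _ _ h2, Form.part_val, add_comm k 1]
    refine WA.prt_mul_of_left ?_ _
    have h3 := (Co.isDeg_chf (D := D) (F := G)).d
    rw [← Form.part_val, show (1 : ℕ) = 0 + 1 from rfl, h3.part_eq]
  · rw [h1.self_of_nhds, zero_mul, zero_mul, map_zero]

variable [MeasurableSpace G] [BorelSpace G] {m : ℕ} (o : OrthonormalBasis (Fin m) ℝ G)

theorem part_si {X : Type*} {D : Dif X} {j k : ℕ} (hj : j + 1 = k + m) (σ : Form (Co.SB D G)) :
    Form.part k (Co.si o σ) = Co.si o (Form.part j σ) := by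
  rw [Co.si, Form.part_fi (Co.vc_of_van (Co.vc_dx _)), ← hj, part_dx]
  rfl

/-- the parts of the fibre integral -/
theorem part_SI {p : S → B} {q : Fr' → B} {ev : Fr' × G → S} (h : Co.Bun DB DS DF G p q ev)
    {j k : ℕ} (hj : j + 1 = k + m) (σ : Form DS) :
    Form.part k (h.SI o σ) = h.SI o (Form.part j σ) := by
  refine Co.pull_inj h.hq ?_
  rw [← Form.part_pull, h.pull_SI, h.pull_SI, part_si o hj, Form.part_pull]

end Gen

variable {E : Type*} [NormedAddCommGroup E] [NormedSpace ℝ E]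
  {M : Type*} [MetricSpace M] [ChartedSpace E M]
  [RiemannianBundle (fun x : M => TangentSpace 𝓘(ℝ, E) x)]
  {e : ∀ x : M, TangentSpace 𝓘(ℝ, E) x → M}
  [FiniteDimensional ℝ E] [IsManifold 𝓘(ℝ, E) ∞ M]
  [IsContMDiffRiemannianBundle 𝓘(ℝ, E) ∞ E (fun x : M => TangentSpace 𝓘(ℝ, E) x)]
  [CompactSpace M] [ConnectedSpace M] [IsRiemannianManifold 𝓘(ℝ, E) M]
  (F : Facts e) {D : ℝ} (hD : 0 < D) (hB : InjGE e D) (hdiam : ∀ p q : M, dist p q ≤ D)
  {l : ℕ} [NeZero l] (hP : ∀ x y : M, dist x y = D → finrank ℝ (H775.Pl e D x y) = l + 1)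
  {b : Form (dPr e D)} (hb : Orn F hD hB hdiam (l := l) b) (hl : Odd l)

/-- integration along the fibres of the sphere bundle of `L` -/
def SL : Form (dPr e D) →ₗ[ℝ] Form (dUT E M) := (bun_SL F hD hB hdiam hP hb hl).SIL (bas l)

theorem SL_apply (w : Form (dPr e D)) :
    SL F hD hB hdiam hP hb hl w = (bun_SL F hD hB hdiam hP hb hl).SI (bas l) w := rfl

/-- the fibre integral in a plot of oriented frames -/
theorem SL_val (w : Form (dPr e D)) {E' : Type} [NormedAddCommGroup E'] [NormedSpace ℝ E']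
    [FiniteDimensional ℝ E'] {f : E' → Fr e D l} {x : E'}
    (hf : (dFo F hD hB hdiam b).At f x) :
    (SL F hD hB hdiam hP hb hl w).val (Fr.v ∘ f) x = (frb F hD hB hdiam w).val f x := by
  have h := bun_SL F hD hB hdiam hP hb hl
  have h1 := congrArg (fun a : Form (dFo F hD hB hdiam b) => a.val f x) (h.pull_SI (bas l) w)
  change (Form.pull _ _ _).val f x = _ at h1
  rw [Form.pull_val _ _ hf] at h1
  refine h1.trans ?_
  have h2 := Co.si_nat (bas l) (Dif.map_on (D := dFr e D l) (O := {f | 0 < kf F hD hB hdiam b f}))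
    (Form.pull (cone F hD hB hdiam) (map_coneS F hD hB hdiam) w)
  have h3 := congrArg (fun a : Form (dFo F hD hB hdiam b) => a.val f x) h2
  change _ = (Form.pull _ _ _).val f x at h3
  rw [Form.pull_val _ _ hf] at h3
  refine Eq.trans ?_ h3
  change (Co.si (bas l) (Form.pull _ _ w)).val f x = _
  congr 2
  exact (H584.pull_pull (k := cone F hD hB hdiam) _ _ _ (fun _ => rfl) w).symm

/-- Stokes along the fibres -/
theorem SL_d (w : Form (dPr e D)) :
    SL F hD hB hdiam hP hb hl w.d = (SL F hD hB hdiam hP hb hl w).d := by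
  have h1 := (bun_SL F hD hB hdiam hP hb hl).SI_d (bas l) w
  rw [hl.add_one.neg_one_pow, one_smul] at h1
  exact h1

/-- the projection formula -/
theorem SL_mul (w : Form (dPr e D)) (v : Form (dUT E M)) :
    SL F hD hB hdiam hP hb hl (w * Form.pull Pr.v map_v v) =
      SL F hD hB hdiam hP hb hl w * v :=
  (bun_SL F hD hB hdiam hP hb hl).SI_mul_π (bas l) w v

theorem part_SL {j k : ℕ} (hj : j + 1 = k + l) (w : Form (dPr e D)) :
    Form.part k (SL F hD hB hdiam hP hb hl w) = SL F hD hB hdiam hP hb hl (Form.part j w) :=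
  part_SI (bas l) (bun_SL F hD hB hdiam hP hb hl) hj w

/-- **the integral of the orienting form is a positive constant** -/
theorem SL_self (h2 : 2 ≤ finrank ℝ E) :
    ∃ k : ℝ, 0 < k ∧ SL F hD hB hdiam hP hb hl b = k • 1 := by
  have : Nontrivial E := nontrivial_of_finrank_pos (R := ℝ) (by omega)
  have hdeg : Form.IsDeg 0 (SL F hD hB hdiam hP hb hl b) :=
    (bun_SL F hD hB hdiam hP hb hl).isDeg_SI (bas l) hb.deg (by have := NeZero.pos l; omega)
  have hd : (SL F hD hB hdiam hP hb hl b).d = 0 := by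
    rw [← SL_d, hb.closed, map_zero]
  rcases isEmpty_or_nonempty (UT E M) with hem | ⟨⟨v₀⟩⟩
  · refine ⟨1, one_pos, Form.ext_val fun E' _ _ _ u x hu => ?_⟩
    exact (hem.false (u x)).elim
  · have h1 := WF.const_of_closed (WF.sConn_UT F h2) (wf_of_isDeg hdeg) hd v₀
    rw [Algebra.algebraMap_eq_smul_one] at h1
    refine ⟨_, ?_, h1⟩
    have hq := (bun_SL F hD hB hdiam hP hb hl).hq
    have hv : (dUT E M).At (fun _ : ℝ => v₀) 0 := WF.const_at v₀ 0
    obtain ⟨f, hf, hfv⟩ := hq.lift hv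
    have h3 := SL_val F hD hB hdiam hP hb hl b hf
    have h4 : (dUT E M).At (Fr.v ∘ f) 0 := hq.map hf
    have h5 := congrArg aug h3
    rw [← WF.ptv_eq _ h4, ← WF.ptv_eq _ hf.1] at h5
    have h6 : (Fr.v ∘ f) 0 = v₀ := hfv.self_of_nhds
    rw [h6] at h5
    rw [h5]
    exact hf.2.self_of_nhds

section Functional

variable {N : ℕ} (hN : finrank ℝ E = N + 1) (I : Form (dUT E M) →ₗ[ℝ] ℝ)
  (hIm : ∀ w, I w = I (Form.part (2 * N + 1) w))

include hN hIm in
/-- basic forms for a flow which moves every point -/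
theorem I_SL_basic {Φ : Pr e D × ℝ → Pr e D} (hΦ : ((dPr e D).prod (Dif.lin ℝ)).Map (dPr e D) Φ)
    (h0 : ∀ q, Φ (q, 0) = q) (hmv : ∀ q, WG.Moves (dPr e D) Φ q) (w : Form (dPr e D))
    (hw : Basic Φ hΦ w) : I (SL F hD hB hdiam hP hb hl w) = 0 := by
  have hj : 2 * N + l + 1 = 2 * N + 1 + l := by omega
  have hw' : Basic Φ hΦ (Form.part (2 * N + l) w) := by
    change Form.pull Φ hΦ (Form.part (2 * N + l) w) = pr (Form.part (2 * N + l) w)
    rw [← Form.part_pull, hw]
    exact Form.part_pull _ _ (Dif.map_fst (D := dPr e D) (D' := Dif.lin ℝ)) w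
  have h1 : Form.part (2 * N + l) w = 0 :=
    WG.basic_top_eq_zero (dimEq_Pr F hD hB hdiam hP hN hj) hΦ h0 hmv (Form.isDeg_part _ w) hw'
  rw [hIm, part_SL F hD hB hdiam hP hb hl hj, h1, map_zero, map_zero]

include hN hIm in
/-- basic forms of the rotation flow -/
theorem I_SL_R (w : Form (dPr e D)) (hw : Basic (R F hD hB hdiam) (map_R F hD hB hdiam) w) :
    I (SL F hD hB hdiam hP hb hl w) = 0 :=
  I_SL_basic F hD hB hdiam hP hb hl hN I hIm (map_R F hD hB hdiam)
    (isFlow_R F hD hB hdiam).zero (moves_R F hD hB hdiam) w hw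

include hN hIm in
/-- basic forms of a lift of the geodesic flow -/
theorem I_SL_lift {Φ : Pr e D × ℝ → Pr e D}
    (hΦ : ((dPr e D).prod (Dif.lin ℝ)).Map (dPr e D) Φ) (h0 : ∀ q, Φ (q, 0) = q)
    (hΦv : ∀ q t, (Φ (q, t)).v = phi F (q.v, t)) (w : Form (dPr e D)) (hw : Basic Φ hΦ w) :
    I (SL F hD hB hdiam hP hb hl w) = 0 :=
  I_SL_basic F hD hB hdiam hP hb hl hN I hIm hΦ h0 (moves_lift F hΦv) w hw

end Functional

/-! ### the half period -/

/-- the transported frame -/
def ThF (f : Fr e D l) : Fr e D l :=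
  ⟨(phi F (f.v, D), fun i => phi F (f.W i, D)),
    ⟨fun i => isL_Th F hD hB hdiam (f.isLF.isL i), fun i j hij => by
      change ip (gm e (f.v, D)) (vec' (phi F (f.W i, D))) (vec' (phi F (f.W j, D))) = 0
      rw [← (f.isLF.isL i).Tr_eq F hD hB hdiam, ← (f.isLF.isL j).Tr_eq F hD hB hdiam,
        ip_Tr_of_mem F hD hB hdiam (f.isLF.isL i).mem_Lf (f.isLF.isL j).mem_Lf]
      exact f.isLF.orth i j hij⟩⟩

theorem map_ThF : (dFr e D l).Map (dFr e D l) (ThF F hD hB hdiam) := fun h =>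
  ⟨map_phiD F D h.1, fun i => map_phiD F D (h.2 i)⟩

theorem cb_ThF (f : Fr e D l) {y : Eul l} (hy : ‖y‖ = 1) :
    cb (ThF F hD hB hdiam f) y = vec' (phi F (W.mk (foot f.v) (cb f y) (nm_cb f hy), D)) := by
  have h1 : IsL e D f.v (W.mk (foot f.v) (cb f y) (nm_cb f hy)) :=
    (isL_iff F hD hB hdiam (nm_cb f hy)).1 (cb_mem f y)
  rw [← h1.Tr_eq F hD hB hdiam]
  change cb (ThF F hD hB hdiam f) y = Tr F hD hB hdiam f.v (cb f y)
  rw [cb, cb, ← TrL_apply, map_sum]
  refine Finset.sum_congr rfl fun i _ => ?_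
  rw [map_smul, TrL_apply, (f.isLF.isL i).Tr_eq F hD hB hdiam]
  rfl

theorem cone_ThF (f : Fr e D l) {y : Eul l} (hy : ‖y‖ = 1) :
    cone F hD hB hdiam (ThF F hD hB hdiam f, y) =
      Th F hD hB hdiam (cone F hD hB hdiam (f, y)) := by
  have h1 := cone_w F hD hB hdiam f hy
  refine Pr.ext' ?_ ?_
  · rw [cone_v, Th_v, cone_v]
    rfl
  · rw [cone_w F hD hB hdiam _ hy, Th_w, h1]
    refine (mk_congr ?_ (cb_ThF F hD hB hdiam f hy)).trans (mk_eta _)
    have h2 : IsL e D f.v (W.mk (foot f.v) (cb f y) (nm_cb f hy)) :=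
      (isL_iff F hD hB hdiam (nm_cb f hy)).1 (cb_mem f y)
    exact h2.bar_eq.symm

/-- the fibre integral and the transport -/
theorem frb_Th (w : Form (dPr e D)) :
    (frb F hD hB hdiam (Form.pull (Th F hD hB hdiam) (map_Th F hD hB hdiam) w) :
      Form (dFr e D l)) =
      Form.pull (ThF F hD hB hdiam) (map_ThF F hD hB hdiam) (frb F hD hB hdiam w) := by
  have h1 := Co.si_nat (bas l) (map_ThF F hD hB hdiam (l := l))
    (Form.pull (cone F hD hB hdiam) (map_coneS F hD hB hdiam) w)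
  refine Eq.trans ?_ h1
  change Co.si (bas l) _ = _
  congr 1
  refine Form.ext_val fun E' _ _ _ u x hu => ?_
  rw [Form.pull_val _ _ hu, Form.pull_val _ _ (map_coneS F hD hB hdiam hu),
    Form.pull_val _ _ hu, Form.pull_val _ _ (Co.map_SB (map_ThF F hD hB hdiam) hu)]
  refine w.congr (map_Th F hD hB hdiam (map_coneS F hD hB hdiam hu)) ?_
  filter_upwards [hu.2] with y hy
  exact (cone_ThF F hD hB hdiam (u y).1 hy).symm

/-- **the fibre integral of a transported form** -/
theorem SL_Th (hbT : Form.pull (Th F hD hB hdiam) (map_Th F hD hB hdiam) b = -b)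
    (w : Form (dPr e D)) :
    SL F hD hB hdiam hP hb hl (Form.pull (Th F hD hB hdiam) (map_Th F hD hB hdiam) w) =
      -Form.pull (fun v => phi F (v, D)) (map_phiD F D) (SL F hD hB hdiam hP hb hl w) := by
  have hq := (bun_SL F hD hB hdiam hP hb hl).hq
  refine Form.ext_val fun E' _ _ _ u x hu => ?_
  obtain ⟨f, hf, hfu⟩ := hq.lift hu
  have hfv : (dUT E M).At (Fr.v ∘ f) x := hq.map hf
  rw [← Form.congr _ hfv hfu, ← Form.congr _ hfv hfu,
    SL_val F hD hB hdiam hP hb hl _ hf, frb_Th, Form.pull_val _ _ hf.1, Form.neg_val,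
    Form.pull_val _ _ hfv]
  -- the oriented frame at the far end
  have hTf : (dFr e D l).At (ThF F hD hB hdiam ∘ f) x := map_ThF F hD hB hdiam hf.1
  have hFf : (dFr e D l).At (flip F hD hB hdiam ∘ (ThF F hD hB hdiam ∘ f)) x :=
    map_flip F hD hB hdiam hTf
  have hk : ∀ s, (dFr e D l).At f s → kf F hD hB hdiam b (flip F hD hB hdiam
      (ThF F hD hB hdiam (f s))) = kf F hD hB hdiam b (f s) := by
    intro s hs
    have h1 : (dFr e D l).At (ThF F hD hB hdiam ∘ f) s := map_ThF F hD hB hdiam hs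
    have h2 := kf_flip F hD hB hdiam hb.deg hl h1
    have h3 := frb_Th F hD hB hdiam (l := l) b
    rw [hbT] at h3
    have h4 := congrArg (fun a : Form (dFr e D l) => a.val f s) h3
    change _ = (Form.pull _ _ _).val f s at h4
    rw [Form.pull_val _ _ hs] at h4
    have h5 := congrArg aug h4
    rw [← WF.ptv_eq _ hs, ← WF.ptv_eq _ h1] at h5
    have h6 : WF.ptv (frb F hD hB hdiam (-b) : Form (dFr e D l)) (f s) =
        -kf F hD hB hdiam b (f s) := by
      rw [kf, ← ptv_neg]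
      congr 1
      have h7 := frb F hD hB hdiam (l := l) (-b)
      rw [frb, frb, Co.pull_neg]
      have h8 := Co.si_smul (bas l) (-1)
        (Form.pull (cone F hD hB hdiam) (map_coneS F hD hB hdiam) b)
      rw [neg_one_smul, neg_one_smul] at h8
      exact h8
    rw [h6] at h5
    have h9 : kf F hD hB hdiam b ((ThF F hD hB hdiam ∘ f) s) = -kf F hD hB hdiam b (f s) :=
      h5.symm
    change kf F hD hB hdiam b (flip F hD hB hdiam ((ThF F hD hB hdiam ∘ f) s)) = _
    rw [h2, h9, neg_neg]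
  have hFo : (dFo F hD hB hdiam b).At (flip F hD hB hdiam ∘ (ThF F hD hB hdiam ∘ f)) x := by
    refine ⟨hFf, ?_⟩
    filter_upwards [(dFr e D l).open' hf.1, hf.2] with s h1 h2
    change 0 < kf F hD hB hdiam b (flip F hD hB hdiam (ThF F hD hB hdiam (f s)))
    rw [hk s h1]
    exact h2
  have h10 := SL_val F hD hB hdiam hP hb hl w hFo
  have h11 : Fr.v ∘ (flip F hD hB hdiam ∘ (ThF F hD hB hdiam ∘ f)) =
      (fun v => phi F (v, D)) ∘ (Fr.v ∘ f) := rfl
  rw [h11] at h10
  rw [h10]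
  have h12 := frb_change w hTf hFf
    (g := fun _ => -ContinuousLinearMap.id ℝ (Eul l)) (Sm.of_contDiff contDiff_const _)
    (Eventually.of_forall fun s y => by
      change ‖-y‖ = ‖y‖
      exact norm_neg y)
    (Eventually.of_forall fun s y hy => cone_flip F hD hB hdiam (ThF F hD hB hdiam (f s)) hy)
  rw [det_neg_id hl, neg_one_smul] at h12
  rw [h12, neg_neg]

/-- **the functional is antisymmetric under the half period** -/
theorem I_SL_Th {N : ℕ} (hN : finrank ℝ E = N + 1) (I : Form (dUT E M) →ₗ[ℝ] ℝ)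
    (hIm : ∀ w, I w = I (Form.part (2 * N + 1) w)) (hId : ∀ w : Form (dUT E M), I w.d = 0)
    (hbT : Form.pull (Th F hD hB hdiam) (map_Th F hD hB hdiam) b = -b)
    (w : Form (dPr e D)) :
    I (SL F hD hB hdiam hP hb hl (Form.pull (Th F hD hB hdiam) (map_Th F hD hB hdiam) w)) =
      -I (SL F hD hB hdiam hP hb hl w) := by
  have hdimV : WA.DimLE (dUT E M) (2 * N + 1) := fun hu => WF.dimLE_UT E M hN hu
  have hm : ∀ w : Form (dUT E M), Form.part (2 * N + 1 + 1) w = 0 := fun w =>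
    hdimV.part_eq_zero (by omega) w
  rw [SL_Th F hD hB hdiam hP hb hl hbT, map_neg, neg_inj]
  exact WA.hID hId hIm hm (isFlow_phi F hD hB hdiam) _

end

end Vale.Agent.P231.S2II
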