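import Vale.Agent.P231.S2II.Fun
import Vale.Agent.P231.Co.Gys
import Vale.Agent.P231.L3.SysSL

/-!
# P231, stage 2, S2-II (8): the closed form `b₀ = ∫_0^{2π} R_t^* v^* B₀ dt` of degree `l - 1` on the
space of pairs
-/

set_option maxSynthPendingDepth 3
set_option linter.unusedSectionVars false
set_option linter.unusedVariables false

open Bundle Manifold Set Filter Module MeasureTheory
open scoped ContDiff Manifold Topology

namespace Vale.Agent.P231.S2II

noncomputable section

open Vale.Agent.P234 Vale.Agent.P231 Vale.Agent.P231.Fm Vale.Agent.P231.W Vale.Agent.P231.WR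

variable {E : Type*} [NormedAddCommGroup E] [NormedSpace ℝ E]
  {M : Type*} [MetricSpace M] [ChartedSpace E M]
  [RiemannianBundle (fun x : M => TangentSpace 𝓘(ℝ, E) x)]
  {e : ∀ x : M, TangentSpace 𝓘(ℝ, E) x → M}
  [FiniteDimensional ℝ E] [IsManifold 𝓘(ℝ, E) ∞ M]
  [IsContMDiffRiemannianBundle 𝓘(ℝ, E) ∞ E (fun x : M => TangentSpace 𝓘(ℝ, E) x)]
  [CompactSpace M] [ConnectedSpace M] [IsRiemannianManifold 𝓘(ℝ, E) M]
  (F : Facts e) {D : ℝ} (hD : 0 < D) (hB : InjGE e D) (hdiam : ∀ p q : M, dist p q ≤ D)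

/-- the rotation integral is the integral over the circles of the pairs -/
theorem b0P_eq (G : Form (dM E M)) :
    L3.b0P F hD hB hdiam G = WR.kf F hD hB hdiam (B0 F D G) := by
  have h1 : Form.pull (R F hD hB hdiam) (isFlow_R F hD hB hdiam).map
      (Form.pull Pr.v map_v (B0 F D G)) =
      Form.pull (cv e D) (map_cv F hD hB hdiam) (B0 F D G) :=
    H584.pull_pull _ map_v (map_cv F hD hB hdiam) (fun p => rfl) _
  exact congrArg (fun a => KT (2 * Real.pi) a) h1

theorem B0_d {G : Form (dM E M)} (hG : G.d = 0) :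
    (B0 F D G).d = Form.pull (bar e D) (map_bar F D) G - Form.pull foot map_foot G := by
  have h := WA.KT_homotopy D (Form.pull (gm e) (map_gm F) G)
  rw [WA.at_pull (map_gm F) D (map_bar F D) (fun _ => rfl),
    WA.at_pull (map_gm F) 0 map_foot (fun v => gm_zero F v), ← Form.pull_d, hG] at h
  have h3 : Form.pull (gm e) (map_gm F) (0 : Form (dM E M)) = 0 :=
    map_zero (Form.pullA (gm e) (map_gm F))
  rw [h3, WA.KT_zero', zero_add] at h
  exact h.symm

theorem isDeg_B0 {G : Form (dM E M)} {k : ℕ} (h : Form.IsDeg (k + 1) G) :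
    Form.IsDeg k (B0 F D G) := Co.isDeg_KT D (h.pull _ _)

theorem b0P_isDeg {G : Form (dM E M)} {l : ℕ} (hl : 1 ≤ l) (h : Form.IsDeg (l + 1) G) :
    Form.IsDeg (l - 1) (L3.b0P F hD hB hdiam G) := by
  rw [b0P_eq]
  have h1 : Form.IsDeg (l - 1 + 1) (B0 F D G) := by
    rw [Nat.sub_add_cancel hl]
    exact isDeg_B0 F h
  exact Co.isDeg_KT _ (h1.pull _ _)

theorem b0P_d {G : Form (dM E M)} (hG : G.d = 0) : (L3.b0P F hD hB hdiam G).d = 0 := by
  rw [b0P_eq]
  exact WR.kf_closed F hD hB hdiam (B0_d F hG)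

/-- **antisymmetry of `b₀` under the half period of the geodesic flow** -/
theorem b0P_Th (G : Form (dM E M)) :
    Form.pull (Th F hD hB hdiam) (map_Th F hD hB hdiam) (L3.b0P F hD hB hdiam G) =
      -L3.b0P F hD hB hdiam G := by
  rw [b0P_eq]
  exact pull_Th_KT F hD hB hdiam (map_cv F hD hB hdiam) (fun q => rfl)
    (pull_phi_B0 F hD hB hdiam G)

section Ne

variable {l : ℕ} [NeZero l]
  (hP : ∀ x y : M, dist x y = D → finrank ℝ (H775.Pl e D x y) = l + 1)

theorem const_at_Fr (f : Fr e D l) (t : ℝ) : (dFr e D l).At (fun _ : ℝ => f) t :=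
  ⟨WF.const_at (E := E) (M := M) f.v t, fun i => WF.const_at (E := E) (M := M) (f.W i) t⟩

include hP in
/-- the square of the fibre integral does not depend on the frame -/
theorem kf_sq {b : Form (dPr e D)} (hdeg : Form.IsDeg (l - 1) b) {f f' : Fr e D l}
    (h : f.v = f'.v) : kf F hD hB hdiam b f ^ 2 = kf F hD hB hdiam b f' ^ 2 := by
  obtain ⟨g, hg, hiso, hc⟩ := exists_trans F hD hB hdiam hP (const_at_Fr f 0) (const_at_Fr f' 0)
    (Eventually.of_forall fun _ => h)
  have h1 := kf_change (b := b) hdeg (const_at_Fr f 0) (const_at_Fr f' 0) hg hiso hc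
  have h2 := det_iso hiso.self_of_nhds
  rw [h1, mul_pow, ← sq_abs (LinearMap.det _), h2, one_pow, one_mul]

include hP in
/-- the square of the fibre integral is constant -/
theorem kf_sq_const (h2 : 2 ≤ finrank ℝ E) {b : Form (dPr e D)} (hdeg : Form.IsDeg (l - 1) b)
    (hd : b.d = 0) (f f' : Fr e D l) :
    kf F hD hB hdiam b f ^ 2 = kf F hD hB hdiam b f' ^ 2 := by
  classical
  have hex : ∀ v : UT E M, ∃ r : Fr e D l, r.v = v := fun v => by
    obtain ⟨W, hW⟩ := exists_isLF F hD hB hdiam hP v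
    exact ⟨⟨(v, W), hW⟩, rfl⟩
  choose r hr using hex
  have h3 := WF.sConn_UT F h2 (fun v => kf F hD hB hdiam b (r v) ^ 2) (fun c hc s t => ?_) f.v f'.v
  · rw [← kf_sq F hD hB hdiam hP hdeg (f := r f.v) (f' := f) (hr _),
      ← kf_sq F hD hB hdiam hP hdeg (f := r f'.v) (f' := f') (hr _)]
    exact h3
  · have h4 : IsLocallyConstant fun t => kf F hD hB hdiam b (r (c t)) ^ 2 := by
      refine (IsLocallyConstant.iff_eventually_eq _).2 fun t => ?_
      obtain ⟨k, hk, hkc⟩ := (lifts_Fr F hD hB hdiam hP).lift (hc t)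
      have hv : ∀ s, (k s).v = c s → kf F hD hB hdiam b (r (c s)) ^ 2 =
          kf F hD hB hdiam b (k s) ^ 2 := fun s hs =>
        kf_sq F hD hB hdiam hP hdeg ((hr _).trans hs.symm)
      have h6 : (k t).v = c t := hkc.self_of_nhds
      filter_upwards [kf_eventually (F := F) (hD := hD) (hB := hB) (hdiam := hdiam) hdeg hd hk,
        hkc] with s hs1 hs2
      rw [hv s hs2, hs1, hv t h6]
    exact h4.apply_eq_of_preconnectedSpace s t

include hP in
/-- a closed form of degree `l - 1` with one nonzero fibre integral orients all the fibres -/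
theorem orn_of (h2 : 2 ≤ finrank ℝ E) {b : Form (dPr e D)} (hdeg : Form.IsDeg (l - 1) b)
    (hd : b.d = 0) (f₀ : Fr e D l) (h0 : kf F hD hB hdiam b f₀ ≠ 0) :
    Orn F hD hB hdiam (l := l) b where
  deg := hdeg
  closed := hd
  ne := fun f hf => by
    have h1 := kf_sq_const F hD hB hdiam hP h2 hdeg hd f₀ f
    rw [hf, zero_pow two_ne_zero] at h1
    exact h0 (pow_eq_zero_iff two_ne_zero |>.1 h1)

include hP in
/-- the absolute value of the fibre integral is constant -/
theorem abs_kf (h2 : 2 ≤ finrank ℝ E) {b : Form (dPr e D)} (hdeg : Form.IsDeg (l - 1) b)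
    (hd : b.d = 0) (f f' : Fr e D l) :
    |kf F hD hB hdiam b f| = |kf F hD hB hdiam b f'| :=
  sq_eq_sq_iff_abs_eq_abs _ _ |>.1 (kf_sq_const F hD hB hdiam hP h2 hdeg hd f f')

end Ne

end

end Vale.Agent.P231.S2II
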