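import Vale.Agent.P231.S2II.B0
import Vale.Agent.P231.Fm.DegSphere

/-!
# P231, stage 2, S2-II (11): the sphere integral as an integral over the Euclidean space
-/

set_option maxSynthPendingDepth 3
set_option linter.unusedSectionVars false
set_option linter.unusedVariables false

open Bundle Manifold Set Filter Module MeasureTheory
open scoped ContDiff Manifold Topology

namespace Vale.Agent.P231.S2II

noncomputable section

open Vale.Agent.P234 Vale.Agent.P231 Vale.Agent.P231.Fm Vale.Agent.P231.W Vale.Agent.P231.WR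

/-- the radial cut-off function -/
def rct (l : ℕ) (y : Eul l) : ℝ := Real.smoothTransition (2 * ‖y‖ ^ 2 - 1)

theorem contDiff_rct (l : ℕ) : ContDiff ℝ ∞ (rct l) :=
  Real.smoothTransition.contDiff.comp
    ((contDiff_const.mul (contDiff_norm_sq ℝ)).sub contDiff_const)

theorem rct_near_zero (l : ℕ) : ∀ᶠ y in 𝓝 (0 : Eul l), rct l y = 0 := by
  have h1 : Continuous fun y : Eul l => 2 * ‖y‖ ^ 2 := by fun_prop
  have h2 : ∀ᶠ y in 𝓝 (0 : Eul l), 2 * ‖y‖ ^ 2 < 1 :=
    h1.continuousAt.eventually (gt_mem_nhds (by simp))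
  filter_upwards [h2] with y hy
  exact Real.smoothTransition.zero_of_nonpos (by linarith)

theorem cut_rct (l : ℕ) : Q.Cut (rct l) (Metric.closedBall 0 1) where
  smooth := contDiff_rct l
  compact := isCompact_closedBall _ _
  one := fun y hy => by
    rw [mem_closedBall_zero_iff, not_le] at hy
    refine Real.smoothTransition.one_of_one_le ?_
    nlinarith
  zero := rct_near_zero l

variable {E : Type*} [NormedAddCommGroup E] [NormedSpace ℝ E]
  {M : Type*} [MetricSpace M] [ChartedSpace E M]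
  [RiemannianBundle (fun x : M => TangentSpace 𝓘(ℝ, E) x)]
  {e : ∀ x : M, TangentSpace 𝓘(ℝ, E) x → M}
  [FiniteDimensional ℝ E] [IsManifold 𝓘(ℝ, E) ∞ M]
  [IsContMDiffRiemannianBundle 𝓘(ℝ, E) ∞ E (fun x : M => TangentSpace 𝓘(ℝ, E) x)]
  [CompactSpace M] [ConnectedSpace M] [IsRiemannianManifold 𝓘(ℝ, E) M]
  (F : Facts e) {D : ℝ} (hD : 0 < D) (hB : InjGE e D) (hdiam : ∀ p q : M, dist p q ≤ D)
  {l : ℕ} [NeZero l]

/-- the family of the pairs of a frame -/
def fam (f : Fr e D l) (y : Eul l) : Pr e D := cone F hD hB hdiam (f, ‖y‖⁻¹ • y)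

theorem at_const_frame {E' : Type} [NormedAddCommGroup E'] [NormedSpace ℝ E']
    [FiniteDimensional ℝ E'] (f : Fr e D l) (x : E') : (dFr e D l).At (fun _ : E' => f) x := by
  have h := (dFr e D l).comp (u := fun _ : ℝ => f) (g := fun _ : E' => (0 : ℝ)) (x := x)
    (const_at_Fr f 0) (Sm.of_contDiff contDiff_const _)
  exact h

theorem at_pb (f : Fr e D l) {y : Eul l} (hy : y ≠ 0) :
    (Co.PB (dFr e D l) (Eul l)).At (fun y : Eul l => (f, y)) y :=
  ⟨⟨at_const_frame f y, Sm.of_contDiff contDiff_id _⟩, isOpen_ne.mem_nhds hy⟩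

theorem fam_at (f : Fr e D l) {y : Eul l} (hy : y ≠ 0) :
    (dPr e D).At (fam F hD hB hdiam f) y :=
  map_coneS F hD hB hdiam (Co.map_nrm (at_pb f hy))

/-- **the sphere integral as an integral over the Euclidean space** -/
theorem kf_eq (b : Form (dPr e D)) (f : Fr e D l) :
    kf F hD hB hdiam b f = ∫ y : Eul l, evalForm
      (Fm.dx (fderiv ℝ (rct l) y) * b.val (fam F hD hB hdiam f) y) (bas l) := by
  set σ := Form.pull (cone F hD hB hdiam) (map_coneS F hD hB hdiam (l := l)) b with hσ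
  set u₀ : ℝ → Fr e D l := fun _ => f with hu₀
  have h0 : (dFr e D l).At u₀ 0 := const_at_Fr f 0
  have h1 : kf F hD hB hdiam b f =
      aug (∫ y : Eul l, Fm.slice (E := ℝ) (bas l) ((Co.dx σ).val (cylF u₀) (0, y))) := by
    change aug ((Co.si (bas l) σ).val u₀ 0) = _
    rw [Co.si, Form.fi_val (Co.vc_of_van (Co.vc_dx σ)) h0]
    rfl
  have h2 := ContinuousLinearMap.integral_comp_comm
    (LinearMap.toContinuousLinearMap (aug (E := ℝ)).toLinearMap)
    (Form.VC.integrable (Co.vc_of_van (Co.vc_dx σ)) h0 (bas l))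
  rw [h1]
  refine h2.symm.trans (integral_congr_ae (Eventually.of_forall fun y => ?_))
  change aug (Fm.slice (bas l) ((Co.dx σ).val (cylF u₀) (0, y))) = _
  have h3 : (Co.dx σ).val (fun y : Eul l => (f, y)) y =
      Fm.pull (ContinuousLinearMap.inr ℝ ℝ (Eul l)) ((Co.dx σ).val (cylF u₀) (0, y)) := by
    have h4 := (Co.dx σ).nat (u := cylF u₀) (g := fun y : Eul l => ((0 : ℝ), y)) (x := y)
      (cylF_at h0 y) (Sm.of_contDiff (contDiff_const.prodMk contDiff_id) _)
    have h5 : fderiv ℝ (fun y : Eul l => ((0 : ℝ), y)) y =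
        ContinuousLinearMap.inr ℝ ℝ (Eul l) := (hasFDerivAt_prodMk_right (0 : ℝ) y).fderiv
    rw [h5] at h4
    exact h4
  rw [Q.aug_slice, ← h3, Co.dx, Form.mx_val]
  have hat : (Co.D1 (dFr e D l) (Eul l)).At (fun y : Eul l => (f, y)) y :=
    ⟨at_const_frame f y, Sm.of_contDiff contDiff_id _⟩
  have h6 : (Co.chf (dFr e D l) (Eul l)).d.val (fun y : Eul l => (f, y)) y =
      Fm.dx (fderiv ℝ (rct l) y) := by
    rw [Form.d_val _ hat]
    have h7 : (Co.chf (dFr e D l) (Eul l)).val (fun y : Eul l => (f, y)) =ᶠ[𝓝 y]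
        Fm.fn (rct l) := by
      filter_upwards [(Co.D1 (dFr e D l) (Eul l)).open' hat] with z hz
      rw [Co.chf, Form.fn_val _ _ hz]
      rfl
    rw [extd_congr h7, extd_fn ((contDiff_rct l).differentiable (by simp) _)]
  rw [h6]
  by_cases hy : y = 0
  · subst hy
    have h8 : fderiv ℝ (rct l) 0 = 0 := by
      have h9 : rct l =ᶠ[𝓝 0] fun _ => 0 := rct_near_zero l
      rw [h9.fderiv_eq, fderiv_const_apply]
    rw [h8, map_zero, zero_mul]
    change _ = evalForm (Fm.dx (fderiv ℝ (rct l) 0) * b.val (fam F hD hB hdiam f) 0) (bas l)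
    rw [h8, map_zero, zero_mul]
  · rw [Form.pull_val _ _ (at_pb f hy), hσ, Form.pull_val _ _ (Co.map_nrm (at_pb f hy))]
    rfl

end

end Vale.Agent.P231.S2II
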