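import Vale.Agent.P231.S2II.Inst
import Vale.Agent.P231.WR.Kap

/-!
# P231, stage 2, S2-II (4): the bundle of spheres of `L`, oriented by a closed form `b` of degree
`l - 1`
-/

set_option maxSynthPendingDepth 3
set_option linter.unusedSectionVars false
set_option linter.unusedVariables false

open Bundle Manifold Set Filter Module MeasureTheory
open scoped ContDiff Manifold Topology

namespace Vale.Agent.P231.S2II

noncomputable section

open Vale.Agent.P234 Vale.Agent.P231 Vale.Agent.P231.Fm Vale.Agent.P231.W Vale.Agent.P231.WR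

variable {E : Type*} [NormedAddCommGroup E] [NormedSpace ℝ E]
  {M : Type*} [MetricSpace M] [ChartedSpace E M]
  [RiemannianBundle (fun x : M => TangentSpace 𝓘(ℝ, E) x)]
  {e : ∀ x : M, TangentSpace 𝓘(ℝ, E) x → M}
  [FiniteDimensional ℝ E] [IsManifold 𝓘(ℝ, E) ∞ M]
  [IsContMDiffRiemannianBundle 𝓘(ℝ, E) ∞ E (fun x : M => TangentSpace 𝓘(ℝ, E) x)]
  [CompactSpace M] [ConnectedSpace M] [IsRiemannianManifold 𝓘(ℝ, E) M]
  (F : Facts e) {D : ℝ} (hD : 0 < D) (hB : InjGE e D) (hdiam : ∀ p q : M, dist p q ≤ D)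
  {l : ℕ} [NeZero l] (hP : ∀ x y : M, dist x y = D → finrank ℝ (H775.Pl e D x y) = l + 1)

/-- the fibre integral on the space of frames -/
def frb (b : Form (dPr e D)) : Form (dFr e D l) :=
  Co.si (bas l) (Form.pull (cone F hD hB hdiam) (map_coneS F hD hB hdiam) b)

/-- the fibre integral of a form, as a function of the frame -/
def kf (b : Form (dPr e D)) (f : Fr e D l) : ℝ := WF.ptv (frb F hD hB hdiam b) f

/-- a form which orients the fibres of the sphere bundle of `L` -/
structure Orn (b : Form (dPr e D)) : Prop where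
  deg : Form.IsDeg (l - 1) b
  closed : b.d = 0
  ne : ∀ f : Fr e D l, kf F hD hB hdiam b f ≠ 0

section

variable {F hD hB hdiam} {b : Form (dPr e D)}

theorem isDeg_frb (hdeg : Form.IsDeg (l - 1) b) :
    Form.IsDeg 0 (frb F hD hB hdiam b : Form (dFr e D l)) :=
  Co.isDeg_si (bas l) (hdeg.pull _ _) (by have := NeZero.pos l; omega)

theorem frb_d (hb : b.d = 0) : (frb F hD hB hdiam b : Form (dFr e D l)).d = 0 := by
  have h1 := Co.si_d (bas l) (Form.pull (cone F hD hB hdiam) (map_coneS F hD hB hdiam) b)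
  rw [← Form.pull_d, hb, Co.pull_zero, Co.si_zero] at h1
  have h2 : ((-1 : ℝ) ^ (l + 1)) ≠ 0 := pow_ne_zero _ (by norm_num)
  exact (smul_eq_zero.1 h1.symm).resolve_left h2

theorem kf_eventually (hdeg : Form.IsDeg (l - 1) b) (hb : b.d = 0) {E' : Type}
    [NormedAddCommGroup E'] [NormedSpace ℝ E'] [FiniteDimensional ℝ E'] {f : E' → Fr e D l}
    {x : E'} (hf : (dFr e D l).At f x) :
    ∀ᶠ s in 𝓝 x, kf F hD hB hdiam b (f s) = kf F hD hB hdiam b (f x) :=
  ptv_eventually (wf_of_isDeg (isDeg_frb hdeg)) (frb_d hb) hf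

/-- the fibre integral in another frame -/
theorem frb_change (w : Form (dPr e D)) {E' : Type} [NormedAddCommGroup E'] [NormedSpace ℝ E']
    [FiniteDimensional ℝ E'] {f f' : E' → Fr e D l} {x : E'} (hf : (dFr e D l).At f x)
    (hf' : (dFr e D l).At f' x) {g : E' → (Eul l →L[ℝ] Eul l)} (hg : Sm g x)
    (hiso : ∀ᶠ s in 𝓝 x, ∀ y, ‖g s y‖ = ‖y‖)
    (hc : ∀ᶠ s in 𝓝 x, ∀ y, ‖y‖ = 1 →
      cone F hD hB hdiam (f' s, y) = cone F hD hB hdiam (f s, g s y)) :
    (frb F hD hB hdiam w).val f' x =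
      LinearMap.det (g x : Eul l →ₗ[ℝ] Eul l) • (frb F hD hB hdiam w).val f x := by
  refine si_change _ _ hf hf' hg hiso fun y hy => ?_
  have hy' : ∀ᶠ p in 𝓝 ((x, y) : E' × Eul l), p.2 ≠ 0 :=
    continuous_snd.continuousAt.eventually_ne hy
  have hfst : Tendsto (Prod.fst : E' × Eul l → E') (𝓝 (x, y)) (𝓝 x) :=
    continuous_fst.continuousAt
  have hiso' : ∀ᶠ p in 𝓝 ((x, y) : E' × Eul l), ∀ y, ‖g p.1 y‖ = ‖y‖ := hfst.eventually hiso
  have hc' := hfst.eventually hc
  have h3 : Sm (fun p : E' × Eul l => (p.1, g p.1 p.2)) (x, y) := by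
    have h4 : Sm (fun p : E' × Eul l => g p.1) (x, y) :=
      Sm.comp (f := g) (g := Prod.fst) (x := ((x, y) : E' × Eul l)) hg
        (Sm.of_contDiff contDiff_fst _)
    filter_upwards [h4] with z hz
    exact contDiffAt_fst.prodMk (hz.clm_apply contDiffAt_snd)
  have h5 : (Co.PB (dFr e D l) (Eul l)).At (cylF f ∘ fun p : E' × Eul l => (p.1, g p.1 p.2))
      (x, y) := by
    refine ⟨Dif.comp _ (u := cylF f) (cylF_at hf _) h3, ?_⟩
    filter_upwards [hy', hiso'] with p h11 h12 h13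
    have h14 := h12 p.2
    have h15 : g p.1 p.2 = 0 := h13
    rw [h15, norm_zero] at h14
    exact h11 (norm_eq_zero.1 h14.symm)
  have h6 : (Co.PB (dFr e D l) (Eul l)).At (cylF (F := Eul l) f') (x, y) :=
    ⟨cylF_at hf' y, hy'⟩
  have h5' : (Co.SB (dFr e D l) (Eul l)).At (Co.nrm ∘ fun p : E' × Eul l => (f p.1, g p.1 p.2))
      (x, y) := Co.map_nrm h5
  rw [Form.pull_val _ _ (Co.map_nrm h6), Form.pull_val _ _ h5']
  refine w.congr (map_coneS F hD hB hdiam (Co.map_nrm h6)) ?_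
  filter_upwards [hc', hiso', hy'] with p h7 h8 h9
  have h10 := h7 (‖p.2‖⁻¹ • p.2) (by
    rw [norm_smul, norm_inv, norm_norm, inv_mul_cancel₀ (norm_ne_zero_iff.2 h9)])
  change cone F hD hB hdiam (f' p.1, ‖p.2‖⁻¹ • p.2) =
    cone F hD hB hdiam (f p.1, ‖g p.1 p.2‖⁻¹ • g p.1 p.2)
  rw [h10, h8, map_smul]

theorem kf_change (hdeg : Form.IsDeg (l - 1) b) {E' : Type} [NormedAddCommGroup E']
    [NormedSpace ℝ E'] [FiniteDimensional ℝ E'] {f f' : E' → Fr e D l} {x : E'}
    (hf : (dFr e D l).At f x) (hf' : (dFr e D l).At f' x) {g : E' → (Eul l →L[ℝ] Eul l)}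
    (hg : Sm g x) (hiso : ∀ᶠ s in 𝓝 x, ∀ y, ‖g s y‖ = ‖y‖)
    (hc : ∀ᶠ s in 𝓝 x, ∀ y, ‖y‖ = 1 →
      cone F hD hB hdiam (f' s, y) = cone F hD hB hdiam (f s, g s y)) :
    kf F hD hB hdiam b (f' x) =
      LinearMap.det (g x : Eul l →ₗ[ℝ] Eul l) * kf F hD hB hdiam b (f x) := by
  have h1 := frb_change b hf hf' hg hiso hc
  have h2 := congrArg aug h1
  rw [map_smul, ← WF.ptv_eq _ hf, ← WF.ptv_eq _ hf', smul_eq_mul] at h2
  exact h2

end

/-! ### the opposite frame -/

/-- the opposite frame -/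
def flip (f : Fr e D l) : Fr e D l :=
  ⟨(f.v, fun i => ng (f.W i)), ⟨fun i => (f.isLF.isL i).ng F hD hB hdiam, fun i j hij => by
    change ip (foot f.v) (vec' (ng (f.W i))) (vec' (ng (f.W j))) = 0
    rw [vec'_ng, vec'_ng, ip_neg_right', ip_comm', ip_neg_right', ip_comm', f.isLF.orth i j hij,
      neg_zero, neg_zero]⟩⟩

theorem map_flip : (dFr e D l).Map (dFr e D l) (flip F hD hB hdiam) := fun h =>
  ⟨h.1, fun i => map_ng (h.2 i)⟩

theorem cb_flip (f : Fr e D l) (y : Eul l) : cb (flip F hD hB hdiam f) y = cb f (-y) := by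
  have h1 : ∀ i, vec' ((flip F hD hB hdiam f).W i) = -vec' (f.W i) := fun i => vec'_ng _
  rw [cb, cb]
  refine Finset.sum_congr rfl fun i _ => ?_
  rw [h1, smul_neg, PiLp.neg_apply, neg_smul]

theorem cone_flip (f : Fr e D l) {y : Eul l} (hy : ‖y‖ = 1) :
    cone F hD hB hdiam (flip F hD hB hdiam f, y) = cone F hD hB hdiam (f, -y) := by
  have hy' : ‖-y‖ = 1 := by rw [norm_neg, hy]
  refine Pr.ext' ?_ ?_
  · rw [cone_v, cone_v]
    rfl
  · rw [cone_w F hD hB hdiam _ hy, cone_w F hD hB hdiam _ hy']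
    exact mk_congr rfl (cb_flip F hD hB hdiam f y)

theorem det_neg_id (hl : Odd l) :
    LinearMap.det ((-ContinuousLinearMap.id ℝ (Eul l) : Eul l →L[ℝ] Eul l) :
      Eul l →ₗ[ℝ] Eul l) = -1 := by
  have h1 : ((-ContinuousLinearMap.id ℝ (Eul l) : Eul l →L[ℝ] Eul l) : Eul l →ₗ[ℝ] Eul l) =
      (-1 : ℝ) • (LinearMap.id : Eul l →ₗ[ℝ] Eul l) := by
    ext y
    simp
  rw [h1, LinearMap.det_smul, LinearMap.det_id, mul_one, finrank_euclideanSpace,
    Fintype.card_fin, hl.neg_one_pow]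

theorem kf_flip {b : Form (dPr e D)} (hdeg : Form.IsDeg (l - 1) b) (hl : Odd l) {E' : Type}
    [NormedAddCommGroup E'] [NormedSpace ℝ E'] [FiniteDimensional ℝ E'] {f : E' → Fr e D l}
    {x : E'} (hf : (dFr e D l).At f x) :
    kf F hD hB hdiam b (flip F hD hB hdiam (f x)) = -kf F hD hB hdiam b (f x) := by
  have h1 := kf_change (b := b) hdeg hf (map_flip F hD hB hdiam hf)
    (g := fun _ => -ContinuousLinearMap.id ℝ (Eul l)) (Sm.of_contDiff contDiff_const _)
    (Eventually.of_forall fun s y => by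
      change ‖-y‖ = ‖y‖
      exact norm_neg y)
    (Eventually.of_forall fun s y hy => cone_flip F hD hB hdiam (f s) hy)
  rw [det_neg_id hl, neg_one_mul] at h1
  exact h1

/-- the space of oriented frames -/
abbrev dFo (b : Form (dPr e D)) : Dif (Fr e D l) :=
  (dFr e D l).on {f | 0 < kf F hD hB hdiam b f}

include hP in
/-- **the sphere bundle of `L`** -/
theorem bun_SL {b : Form (dPr e D)} (hb : Orn F hD hB hdiam (l := l) b) (hl : Odd l) :
    Co.Bun (dUT E M) (dPr e D) (dFo F hD hB hdiam b) (Eul l) Pr.v Fr.v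
      (cone F hD hB hdiam) where
  hπ := map_v
  hq :=
    { map := fun h => map_Fr_v h.1
      lift := fun {E'} _ _ _ {u x} hu => by
        obtain ⟨f, hf, hfu⟩ := (lifts_Fr F hD hB hdiam hP).lift hu
        rcases lt_or_gt_of_ne (hb.ne (f x)) with h | h
        · refine ⟨fun s => flip F hD hB hdiam (f s), ⟨map_flip F hD hB hdiam hf, ?_⟩, hfu⟩
          have h1 := kf_eventually (F := F) (hD := hD) (hB := hB) (hdiam := hdiam) hb.deg hb.closed
            (map_flip F hD hB hdiam hf)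
          filter_upwards [h1] with s hs
          have h2 := kf_flip F hD hB hdiam hb.deg hl hf
          have h3 : kf F hD hB hdiam b (flip F hD hB hdiam (f s)) =
            kf F hD hB hdiam b (flip F hD hB hdiam (f x)) := hs
          change 0 < kf F hD hB hdiam b (flip F hD hB hdiam (f s))
          rw [h3, h2]
          linarith
        · refine ⟨f, ⟨hf, ?_⟩, hfu⟩
          filter_upwards [kf_eventually (F := F) (hD := hD) (hB := hB) (hdiam := hdiam) hb.deg
            hb.closed hf] with s hs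
          change 0 < kf F hD hB hdiam b (f s)
          rw [hs]
          exact h }
  hev := fun {E'} _ _ _ {u x} h => map_coneS F hD hB hdiam ⟨⟨h.1.1.1, h.1.2⟩, h.2⟩
  comm := fun {E'} _ _ _ {u x} h => cone_v F hD hB hdiam (u x)
  trans := fun {E'} _ _ _ {f f' x} hf hf' hff => by
    obtain ⟨g, hg, hiso, hc⟩ := exists_trans F hD hB hdiam hP hf.1 hf'.1 hff
    refine ⟨g, hg, ?_⟩
    filter_upwards [hiso, hc, hg.eventually, eventually_eventually_nhds.2 hiso,
      eventually_eventually_nhds.2 hc, (dFr e D l).open' hf.1, (dFr e D l).open' hf'.1,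
      hf.2, hf'.2] with s h1 h2 h3 h4 h5 h6 h7 h8 h9
    refine ⟨h1, ?_, h2⟩
    have h10 := kf_change (b := b) hb.deg h6 h7 h3 h4 h5
    have h11 := det_iso h1
    have h8' : 0 < kf F hD hB hdiam b (f s) := h8
    have h9' : 0 < kf F hD hB hdiam b (f' s) := h9
    rcases abs_eq (zero_le_one' ℝ) |>.1 h11 with h12 | h12
    · exact h12
    · rw [h12, neg_one_mul] at h10
      linarith
  lift := fun {E'} _ _ _ {s f x} hs hf hsf => by
    refine ⟨fun y => co (f y) (vec' (s y).w), ?_, ?_⟩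
    · have h1 : ∀ i, Sm (fun y => co (f y) (vec' (s y).w) i) x := by
        intro i
        refine sm_ip' (u := fun y => (f y).v) (hf.1.2 i) hs.2
          (Eventually.of_forall fun y => ((f y).isLF.isL i).foot_eq) ?_
        filter_upwards [hsf] with y hy
        have hy' : (f y).v = (s y).v := hy
        rw [hy']
        exact (s y).isL.foot_eq
      filter_upwards [eventually_all.2 h1] with y hy
      exact contDiffAt_euclidean.2 hy
    · filter_upwards [hsf] with y hy
      have hy' : (f y).v = (s y).v := hy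
      have h2 : (vec' (E := E) (s y).w : TangentSpace 𝓘(ℝ, E) (foot (f y).v)) ∈
          Lf e D (f y).v := by
        rw [hy']
        exact (s y).isL.mem_Lf
      have h3 := cb_co F hD hB hdiam hP (f y) h2
      have h4 : ‖co (f y) (vec' (s y).w)‖ = 1 := by
        have h5 : ‖co (f y) (vec' (s y).w)‖ ^ 2 = 1 := by
          rw [← real_inner_self_eq_norm_sq, ← ip_cb_cb (f y), h3, hy']
          exact (s y).isL.ip_self
        exact (sq_eq_sq₀ (norm_nonneg _) zero_le_one).1 (h5.trans (one_pow 2).symm)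
      refine ⟨h4, Pr.ext' ?_ ?_⟩
      · rw [cone_v]
        exact hy'
      · rw [cone_w F hD hB hdiam _ h4]
        refine (mk_congr ?_ h3).trans (mk_eta (s y).w)
        rw [hy']
        exact (s y).isL.foot_eq.symm
  inj := fun {E'} _ _ _ {f x} hf ξ ξ' h1 h2 h3 => by
    have h4 := congrArg Pr.w h3
    rw [cone_w F hD hB hdiam _ h1, cone_w F hD hB hdiam _ h2] at h4
    have h5 : cb (f x) ξ = cb (f x) ξ' := congrArg vec' h4
    rw [← co_cb (f x) ξ, h5, co_cb]

end

end Vale.Agent.P231.S2II
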