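import Vale.Agent.P231.Co.SI

/-!
# P231, stage 2, S2-II (1): the fibre integral after a gauge transformation, in a plot
-/

set_option linter.unusedSectionVars false
set_option linter.unusedVariables false

open MeasureTheory Set Module Filter Topology
open scoped ContDiff

namespace Vale.Agent.P231.S2II

noncomputable section

open Vale.Agent.P231.Fm
open Vale.Agent.P231.Fm (Dif Form Sm)

/-- the Euclidean space of the fibre -/
abbrev Eul (l : ℕ) : Type := EuclideanSpace ℝ (Fin l)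

/-- the standard basis of the fibre -/
abbrev bas (l : ℕ) : OrthonormalBasis (Fin l) ℝ (Eul l) := EuclideanSpace.basisFun (Fin l) ℝ

section Change

variable {X : Type*} {D : Dif X} {l : ℕ}

theorem det_iso {g : Eul l →L[ℝ] Eul l} (h : ∀ y, ‖g y‖ = ‖y‖) :
    |LinearMap.det (g : Eul l →ₗ[ℝ] Eul l)| = 1 := by
  let L : Eul l →ₗᵢ[ℝ] Eul l := ⟨(g : Eul l →ₗ[ℝ] Eul l), h⟩
  rw [← LinearMap.normDet_eq_abs_det]
  exact L.normDet_eq_one

variable {E : Type} [NormedAddCommGroup E] [NormedSpace ℝ E] [FiniteDimensional ℝ E]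

/-- the fibre integral after a gauge transformation, in a plot -/
theorem si_change (σ σ' : Form (Co.SB D (Eul l))) {f f' : E → X} {x : E} (hf : D.At f x)
    (hf' : D.At f' x) {g : E → (Eul l →L[ℝ] Eul l)} (hg : Sm g x)
    (hiso : ∀ᶠ s in 𝓝 x, ∀ y, ‖g s y‖ = ‖y‖)
    (hσ : ∀ y : Eul l, y ≠ 0 → σ'.val (Co.nrm ∘ cylF f') (x, y) =
      σ.val (Co.nrm ∘ fun p => (f p.1, g p.1 p.2)) (x, y)) :
    (Co.si (bas l) σ').val f' x =
      LinearMap.det (g x : Eul l →ₗ[ℝ] Eul l) • (Co.si (bas l) σ).val f x := by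
  have hdet := det_iso hiso.self_of_nhds
  have hne : LinearMap.det (g x : Eul l →ₗ[ℝ] Eul l) ≠ 0 := by
    intro h
    rw [h, abs_zero] at hdet
    exact zero_ne_one hdet
  have h1 := fib_lin (bas l) ((Co.dx σ).val (cylF f)) hg.differentiableAt hne
  rw [hdet, inv_one, mul_one] at h1
  rw [Co.si, Co.si, Form.fi_val (Co.vc_of_van (Co.vc_dx σ')) hf',
    Form.fi_val (Co.vc_of_van (Co.vc_dx σ)) hf, ← h1]
  refine integral_congr_ae (Eventually.of_forall fun y => ?_)
  change slice _ _ = slice _ _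
  congr 1
  have h3 : Sm (fun p : E × Eul l => (p.1, g p.1 p.2)) (x, y) := by
    have h4 : Sm (fun p : E × Eul l => g p.1) (x, y) :=
      Sm.comp (f := g) (g := Prod.fst) (x := ((x, y) : E × Eul l)) hg
        (Sm.of_contDiff contDiff_fst _)
    filter_upwards [h4] with z hz
    exact contDiffAt_fst.prodMk (hz.clm_apply contDiffAt_snd)
  have h5 : (D.prod (Dif.lin (Eul l))).At (cylF f ∘ fun p : E × Eul l => (p.1, g p.1 p.2))
      (x, y) := Dif.comp _ (u := cylF f) (cylF_at hf _) h3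
  have h6 : (D.prod (Dif.lin (Eul l))).At (cylF (F := Eul l) f') (x, y) := cylF_at hf' y
  rw [pb, ← (Co.dx σ).nat (u := cylF f) (g := fun p : E × Eul l => (p.1, g p.1 p.2)) (x := (x, y))
    (cylF_at hf _) h3]
  change (Form.mx _ _ _).val _ _ = (Form.mx _ _ _).val _ _
  rw [Form.mx_val, Form.mx_val]
  have hfst : Tendsto (Prod.fst : E × Eul l → E) (𝓝 (x, y)) (𝓝 x) := continuous_fst.continuousAt
  have hiso' : ∀ᶠ p in 𝓝 ((x, y) : E × Eul l), ∀ y, ‖g p.1 y‖ = ‖y‖ := hfst.eventually hiso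
  have h7 : (Co.chf D (Eul l)).d.val (cylF f') (x, y) = (Co.chf D (Eul l)).d.val
      (cylF f ∘ fun p : E × Eul l => (p.1, g p.1 p.2)) (x, y) := by
    rw [Form.d_val _ h6, Form.d_val _ h5]
    refine extd_congr ?_
    filter_upwards [hiso', (D.prod (Dif.lin (Eul l))).open' h6,
      (D.prod (Dif.lin (Eul l))).open' h5] with p hp h8 h9
    rw [Co.chf, Form.fn_val _ _ h8, Form.fn_val _ _ h9]
    congr 1
    change Real.smoothTransition (2 * ‖p.2‖ ^ 2 - 1) =
      Real.smoothTransition (2 * ‖g p.1 p.2‖ ^ 2 - 1)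
    rw [hp]
  rw [h7]
  by_cases hy : y = 0
  · subst hy
    rcases (Co.supp_chf (D := D) (F := Eul l)).d.out h5 with h2 | h2
    · exact absurd (map_zero (g x)) h2.self_of_nhds
    · rw [h2.self_of_nhds, zero_mul, zero_mul]
  · congr 1
    have h8 : (Co.PB D (Eul l)).At (cylF (F := Eul l) f') (x, y) :=
      ⟨h6, continuous_snd.continuousAt.eventually_ne hy⟩
    have h9 : (Co.PB D (Eul l)).At (cylF f ∘ fun p : E × Eul l => (p.1, g p.1 p.2)) (x, y) := by
      refine ⟨h5, ?_⟩
      have h10 : ∀ᶠ p in 𝓝 ((x, y) : E × Eul l), p.2 ≠ 0 :=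
        continuous_snd.continuousAt.eventually_ne hy
      filter_upwards [h10, hiso'] with p h11 h12 h13
      have h14 := h12 p.2
      have h15 : g p.1 p.2 = 0 := h13
      rw [h15, norm_zero] at h14
      exact h11 (norm_eq_zero.1 h14.symm)
    rw [Form.pull_val _ _ h8, Form.pull_val _ _ h9]
    exact hσ y hy

end Change

end

end Vale.Agent.P231.S2II
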