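import Vale.Agent.P231.S2II.BunSL
import Vale.Agent.P231.WG.BasUT

/-!
# P231, stage 2, S2-II (5): the dimension of the space of pairs
-/

set_option maxSynthPendingDepth 3
set_option linter.unusedSectionVars false
set_option linter.unusedVariables false

open Bundle Manifold Set Filter Module MeasureTheory
open scoped ContDiff Manifold Topology

namespace Vale.Agent.P231.S2II

noncomputable section

open Vale.Agent.P234 Vale.Agent.P231 Vale.Agent.P231.Fm Vale.Agent.P231.W Vale.Agent.P231.WR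
  Vale.Agent.P231.H775

variable {E : Type*} [NormedAddCommGroup E] [NormedSpace ℝ E]
  {M : Type*} [MetricSpace M] [ChartedSpace E M]
  [RiemannianBundle (fun x : M => TangentSpace 𝓘(ℝ, E) x)]
  {e : ∀ x : M, TangentSpace 𝓘(ℝ, E) x → M}
  [FiniteDimensional ℝ E] [IsManifold 𝓘(ℝ, E) ∞ M]
  [IsContMDiffRiemannianBundle 𝓘(ℝ, E) ∞ E (fun x : M => TangentSpace 𝓘(ℝ, E) x)]
  [CompactSpace M] [ConnectedSpace M] [IsRiemannianManifold 𝓘(ℝ, E) M]
  (F : Facts e) {D : ℝ} (hD : 0 < D) (hB : InjGE e D) (hdiam : ∀ p q : M, dist p q ≤ D)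
  {l : ℕ} [NeZero l] (hP : ∀ x y : M, dist x y = D → finrank ℝ (H775.Pl e D x y) = l + 1)

theorem cone_w' (f : Fr e D l) {y : Eul l} (hy : y ≠ 0) :
    (cone F hD hB hdiam (f, y)).w = W.mk (foot f.v) (cb f ((‖y‖⁻¹ : ℝ) • y))
      (nm_cb f (norm_nrm hy)) := by
  rw [cone_of F hD hB hdiam (z := (f, y)) hy]
  rfl

/-- the cone map is homogeneous of degree zero -/
theorem cone_smul (f : Fr e D l) {y : Eul l} (hy : y ≠ 0) {c : ℝ} (hc : 0 < c) :
    cone F hD hB hdiam (f, c • y) = cone F hD hB hdiam (f, y) := by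
  have hcy : c • y ≠ 0 := smul_ne_zero hc.ne' hy
  have h1 : (‖c • y‖⁻¹ : ℝ) • c • y = (‖y‖⁻¹ : ℝ) • y := by
    rw [norm_smul, Real.norm_of_nonneg hc.le, smul_smul, mul_inv, mul_comm c⁻¹, mul_assoc,
      inv_mul_cancel₀ hc.ne', mul_one]
  refine Pr.ext' ?_ ?_
  · rw [cone_v, cone_v]
  · rw [cone_w' F hD hB hdiam f hcy, cone_w' F hD hB hdiam f hy]
    exact mk_congr rfl (congrArg (cb f) h1)

include hP in
/-- coordinates of a plot of pairs in a frame -/
theorem exists_coord {E' : Type} [NormedAddCommGroup E'] [NormedSpace ℝ E']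
    [FiniteDimensional ℝ E'] {s : E' → Pr e D} {f : E' → Fr e D l} {x : E'}
    (hs : (dPr e D).At s x) (hf : (dFr e D l).At f x) (hsf : Fr.v ∘ f =ᶠ[𝓝 x] Pr.v ∘ s) :
    ∃ ξ : E' → Eul l, Sm ξ x ∧ ∀ᶠ y in 𝓝 x, ‖ξ y‖ = 1 ∧
      cone F hD hB hdiam (f y, ξ y) = s y := by
  refine ⟨fun y => co (f y) (vec' (s y).w), ?_, ?_⟩
  · have h1 : ∀ i, Sm (fun y => co (f y) (vec' (s y).w) i) x := by
      intro i
      refine sm_ip' (u := fun y => (f y).v) (hf.2 i) hs.2
        (Eventually.of_forall fun y => ((f y).isLF.isL i).foot_eq) ?_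
      filter_upwards [hsf] with y hy
      have hy' : (f y).v = (s y).v := hy
      rw [hy']
      exact (s y).isL.foot_eq
    filter_upwards [eventually_all.2 h1] with y hy
    exact contDiffAt_euclidean.2 hy
  · filter_upwards [hsf] with y hy
    have hy' : (f y).v = (s y).v := hy
    have h2 : (vec' (E := E) (s y).w : TangentSpace 𝓘(ℝ, E) (foot (f y).v)) ∈
        Lf e D (f y).v := by
      rw [hy']
      exact (s y).isL.mem_Lf
    have h3 := cb_co F hD hB hdiam hP (f y) h2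
    have h4 : ‖co (f y) (vec' (s y).w)‖ = 1 := by
      have h5 : ‖co (f y) (vec' (s y).w)‖ ^ 2 = 1 := by
        rw [← real_inner_self_eq_norm_sq, ← ip_cb_cb (f y), h3, hy']
        exact (s y).isL.ip_self
      exact (sq_eq_sq₀ (norm_nonneg _) zero_le_one).1 (h5.trans (one_pow 2).symm)
    refine ⟨h4, Pr.ext' ?_ ?_⟩
    · rw [cone_v]
      exact hy'
    · rw [cone_w F hD hB hdiam _ h4]
      refine (mk_congr ?_ h3).trans (mk_eta (s y).w)
      rw [hy']
      exact (s y).isL.foot_eq.symm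

include F hD hB hdiam hP in
/-- **the dimension of the space of pairs** -/
theorem dimEq_Pr {N : ℕ} (hN : finrank ℝ E = N + 1) {m : ℕ} (hm : m + 1 = 2 * N + 1 + l) :
    WF.DimEq (dPr e D) m := by
  intro E' _ _ _ s x hs
  obtain ⟨c, g, hg, hc, hcg⟩ := WF.dimEq_UT E M hN (map_v hs)
  obtain ⟨f, hf, hfc⟩ := (lifts_Fr F hD hB hdiam hP).lift hc
  have hfg : (dFr e D l).At (f ∘ g) x := (dFr e D l).comp hf hg
  have hv : Fr.v ∘ (f ∘ g) =ᶠ[𝓝 x] Pr.v ∘ s := by
    filter_upwards [hg.continuousAt.eventually hfc, hcg] with y h1 h2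
    change Fr.v (f (g y)) = Pr.v (s y)
    have h1' : Fr.v (f (g y)) = c (g y) := h1
    have h2' : Pr.v (s y) = c (g y) := h2
    rw [h1', h2']
  obtain ⟨ξ, hξ, h1⟩ := exists_coord F hD hB hdiam hP hs hfg hv
  set ξ0 : Eul l := ξ x with hξ0
  have hn0 : ‖ξ0‖ = 1 := h1.self_of_nhds.1
  have hne : ξ0 ≠ 0 := by
    intro h
    rw [h, norm_zero] at hn0
    exact zero_ne_one hn0
  let T : Submodule ℝ (Eul l) := (ℝ ∙ ξ0)ᗮ
  have hl1 : finrank ℝ (Eul l) = (l - 1) + 1 := by
    rw [finrank_euclideanSpace, Fintype.card_fin]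
    have := NeZero.pos l
    omega
  have : Fact (finrank ℝ (Eul l) = (l - 1) + 1) := ⟨hl1⟩
  have hT : finrank ℝ T = l - 1 := Submodule.finrank_orthogonal_span_singleton hne
  let V : Type := EuclideanSpace ℝ (Fin (2 * N + 1)) × T
  have hV : finrank ℝ V = finrank ℝ (EuclideanSpace ℝ (Fin m)) := by
    change finrank ℝ (EuclideanSpace ℝ (Fin (2 * N + 1)) × T) = _
    rw [finrank_prod, hT, finrank_euclideanSpace, finrank_euclideanSpace, Fintype.card_fin,
      Fintype.card_fin]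
    have := NeZero.pos l
    omega
  let φ : V ≃L[ℝ] EuclideanSpace ℝ (Fin m) := ContinuousLinearEquiv.ofFinrankEq hV
  let κ : V → Pr e D := fun z => cone F hD hB hdiam (f z.1, ξ0 + (z.2 : Eul l))
  let τ : E' → T := fun y => (inner ℝ ξ0 (ξ y) : ℝ)⁻¹ • T.orthogonalProjection (ξ y)
  have hin : Sm (fun y => (inner ℝ ξ0 (ξ y) : ℝ)) x := by
    filter_upwards [hξ] with y hy using contDiffAt_const.inner ℝ hy
  have hin0 : (inner ℝ ξ0 (ξ x) : ℝ) = 1 := by
    rw [← hξ0, real_inner_self_eq_norm_sq, hn0, one_pow]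
  have hpos : ∀ᶠ y in 𝓝 x, (0 : ℝ) < inner ℝ ξ0 (ξ y) := by
    refine hin.continuousAt.eventually (lt_mem_nhds ?_)
    change (0 : ℝ) < inner ℝ ξ0 (ξ x)
    rw [hin0]
    exact one_pos
  have hτ : Sm τ x := by
    filter_upwards [hin, hξ, hpos] with y h2 h3 h4
    exact (h2.inv h4.ne').smul (T.orthogonalProjection.contDiff.contDiffAt.comp y h3)
  have hτe : ∀ y, (0 : ℝ) < inner ℝ ξ0 (ξ y) →
      ξ0 + ((τ y : T) : Eul l) = (inner ℝ ξ0 (ξ y) : ℝ)⁻¹ • ξ y := by
    intro y hy
    have h2 : ((T.orthogonalProjection (ξ y) : T) : Eul l) =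
        ξ y - (inner ℝ ξ0 (ξ y) : ℝ) • ξ0 := by
      have h3 : T.starProjection (ξ y) = ξ y - (ℝ ∙ ξ0).starProjection (ξ y) := by
        rw [Submodule.starProjection_orthogonal_val]
      have h4 : (ℝ ∙ ξ0).starProjection (ξ y) = (inner ℝ ξ0 (ξ y) : ℝ) • ξ0 :=
        Submodule.starProjection_unit_singleton ℝ hn0 (ξ y)
      rw [h4] at h3
      exact h3
    change ξ0 + (inner ℝ ξ0 (ξ y) : ℝ)⁻¹ • ((T.orthogonalProjection (ξ y) : T) : Eul l) = _
    rw [h2, smul_sub, smul_smul, inv_mul_cancel₀ hy.ne', one_smul]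
    abel
  have hκ : ∀ z : V, z.1 = g x → (dPr e D).At κ z := by
    intro z hz
    have h2 : ((dFr e D l).prod (Dif.lin (Eul l))).At
        (fun z : V => (f z.1, ξ0 + (z.2 : Eul l))) z := by
      refine ⟨?_, ?_⟩
      · have h3 : Sm (Prod.fst : V → EuclideanSpace ℝ (Fin (2 * N + 1))) z :=
          Sm.of_contDiff contDiff_fst _
        exact (dFr e D l).comp (g := (Prod.fst : V → EuclideanSpace ℝ (Fin (2 * N + 1))))
          (u := f) (hz ▸ hf) h3
      · exact Sm.of_contDiff (contDiff_const.add (T.subtypeL.contDiff.comp contDiff_snd)) _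
    refine map_cone F hD hB hdiam ⟨h2, Eventually.of_forall fun z h => ?_⟩
    have h3 : ξ0 + (z.2 : Eul l) = 0 := h
    have h4 : (inner ℝ ξ0 (z.2 : Eul l) : ℝ) = 0 :=
      Submodule.mem_orthogonal_singleton_iff_inner_right.1 z.2.2
    have h5 := congrArg (fun w : Eul l => (inner ℝ ξ0 w : ℝ)) h3
    simp only [inner_add_right, h4, real_inner_self_eq_norm_sq, hn0, inner_zero_right] at h5
    norm_num at h5
  refine ⟨κ ∘ φ.symm, fun y => φ (g y, τ y), ?_, ?_, ?_⟩
  · exact Sm.comp (f := φ) (g := fun y => (g y, τ y)) (Sm.of_contDiff φ.contDiff _) (hg.prodMk hτ)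
  · refine (dPr e D).comp (u := κ) (g := φ.symm) ?_ (Sm.of_contDiff φ.symm.contDiff _)
    rw [φ.symm_apply_apply]
    exact hκ _ rfl
  · filter_upwards [h1, hpos] with y h2 h3
    have h4 : ξ y ≠ 0 := by
      intro h
      rw [h, norm_zero] at h2
      exact zero_ne_one h2.1
    change s y = κ (φ.symm (φ (g y, τ y)))
    rw [φ.symm_apply_apply]
    change s y = cone F hD hB hdiam (f (g y), ξ0 + ((τ y : T) : Eul l))
    rw [hτe y h3, cone_smul F hD hB hdiam _ h4 (inv_pos.2 h3)]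
    exact h2.2.symm

/-- the rotation flow of the space of pairs moves -/
theorem moves_R (q : Pr e D) : WG.Moves (dPr e D) (R F hD hB hdiam) q := by
  have hne : crd (foot q.v) (foot q.v) (vec' (E := E) q.w : E) ≠ 0 := by
    intro h0
    have h1 := vec_crd (foot q.v) (mem_extChartAt_source (foot q.v)) (vec' (E := E) q.w : E)
    rw [h0, map_zero] at h1
    exact WG.vec'_ne_zero q.w h1.symm
  obtain ⟨a, ha⟩ := SeparatingDual.exists_eq_one (R := ℝ) hne
  refine ⟨fun q' => a (crd (foot q.v) (foot q'.v) (vec' (E := E) q'.v : E)), ?_, 1,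
    one_ne_zero, ?_⟩
  · intro E' _ _ _ u x hu hux
    have h1 : SmV (fun y => foot (u y).v) (fun y => (vec' (E := E) (u y).v : E)) x :=
      Filter.Eventually.self_of_nhds hu.1
    have h2 : foot (u x).v ∈ (extChartAt 𝓘(ℝ, E) (foot q.v)).source := by
      rw [hux]
      exact mem_extChartAt_source (foot q.v)
    have h3 := ((smV_iff (f := fun y => foot (u y).v)
      (u := fun y => (vec' (E := E) (u y).v : E)) (foot q.v) h2).1 h1).2
    exact a.differentiableAt.comp x (h3.differentiableAt (by simp))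
  · have h1 : (fun s : ℝ => a (crd (foot q.v) (foot (R F hD hB hdiam (q, s)).v)
        (vec' (E := E) (R F hD hB hdiam (q, s)).v : E))) = fun s : ℝ =>
        Real.cos s * a (crd (foot q.v) (foot q.v) (vec' (E := E) q.v : E)) +
          Real.sin s * a (crd (foot q.v) (foot q.v) (vec' (E := E) q.w : E)) := by
      funext s
      have h2 : crd (foot q.v) (foot q.v)
          (Real.cos s • vec' (E := E) q.v + Real.sin s • vec' q.w : E)
          = Real.cos s • crd (foot q.v) (foot q.v) (vec' (E := E) q.v : E) +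
            Real.sin s • crd (foot q.v) (foot q.v) (vec' (E := E) q.w : E) := by
        exact (map_add (crd (E := E) (foot q.v) (foot q.v)) _ _).trans
          (congrArg₂ (· + ·) (map_smul (crd (E := E) (foot q.v) (foot q.v)) _ _)
            (map_smul (crd (E := E) (foot q.v) (foot q.v)) _ _))
      change a (crd (foot q.v) (foot q.v) (Real.cos s • vec' (E := E) q.v +
        Real.sin s • vec' q.w : E)) = _
      rw [h2, map_add, map_smul, map_smul, smul_eq_mul, smul_eq_mul]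
    rw [h1, ha]
    have h2 := ((Real.hasDerivAt_cos 0).mul_const
      (a (crd (foot q.v) (foot q.v) (vec' (E := E) q.v : E)))).fun_add
      ((Real.hasDerivAt_sin 0).mul_const (1 : ℝ))
    simpa using h2

/-- a flow of the space of pairs over the geodesic flow moves -/
theorem moves_lift {Φ : Pr e D × ℝ → Pr e D} (hΦ : ∀ q t, (Φ (q, t)).v = phi F (q.v, t))
    (q : Pr e D) : WG.Moves (dPr e D) Φ q := by
  obtain ⟨f, hf, a, ha, h⟩ := WG.moves_phi F q.v
  refine ⟨fun q' => f q'.v, ?_, a, ha, ?_⟩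
  · intro E' _ _ _ u x hu hux
    exact hf (map_v hu) (congrArg Pr.v hux)
  · have h1 : (fun s : ℝ => f (Φ (q, s)).v) = fun s => f (phi F (q.v, s)) := by
      funext s
      rw [hΦ]
    rw [h1]
    exact h

end

end Vale.Agent.P231.S2II
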