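import Vale.Agent.P231.S2II.Change
import Vale.Agent.P231.WR.Proj

/-!
# P231, stage 2, S2-II (2): the space of frames of `L` and the cone map to the space of pairs
-/

set_option maxSynthPendingDepth 3
set_option linter.unusedSectionVars false
set_option linter.unusedVariables false

open Bundle Manifold Set Filter Module MeasureTheory
open scoped ContDiff Manifold Topology

namespace Vale.Agent.P231.S2II

noncomputable section

open Vale.Agent.P234 Vale.Agent.P231 Vale.Agent.P231.Fm Vale.Agent.P231.W Vale.Agent.P231.WR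

variable {E : Type*} [NormedAddCommGroup E] [NormedSpace ℝ E]
  {M : Type*} [MetricSpace M] [ChartedSpace E M]
  [RiemannianBundle (fun x : M => TangentSpace 𝓘(ℝ, E) x)]
  {e : ∀ x : M, TangentSpace 𝓘(ℝ, E) x → M}
  [FiniteDimensional ℝ E] [IsManifold 𝓘(ℝ, E) ∞ M]
  [IsContMDiffRiemannianBundle 𝓘(ℝ, E) ∞ E (fun x : M => TangentSpace 𝓘(ℝ, E) x)]
  [CompactSpace M] [ConnectedSpace M] [IsRiemannianManifold 𝓘(ℝ, E) M]

/-- the orthonormal frames of `L` -/
def Fr (e : ∀ x : M, TangentSpace 𝓘(ℝ, E) x → M) (D : ℝ) (l : ℕ) : Type _ :=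
  {p : UT E M × (Fin l → UT E M) // IsLF e D p.1 p.2}

/-- the base point of a frame -/
def Fr.v {D : ℝ} {l : ℕ} (p : Fr e D l) : UT E M := p.1.1

/-- the vectors of a frame -/
def Fr.W {D : ℝ} {l : ℕ} (p : Fr e D l) : Fin l → UT E M := p.1.2

theorem Fr.isLF {D : ℝ} {l : ℕ} (p : Fr e D l) : IsLF e D p.v p.W := p.2

/-- the diffeology of the space of frames -/
def dFr (e : ∀ x : M, TangentSpace 𝓘(ℝ, E) x → M) (D : ℝ) (l : ℕ) : Dif (Fr e D l) where
  At u x := (dUT E M).At (fun y => (u y).v) x ∧ ∀ i, (dUT E M).At (fun y => (u y).W i) x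
  open' h := ((dUT E M).open' h.1).and (eventually_all.2 fun i => (dUT E M).open' (h.2 i))
  congr h hv := ⟨(dUT E M).congr h.1 (hv.mono fun y hy => congrArg Fr.v hy),
    fun i => (dUT E M).congr (h.2 i) (hv.mono fun y hy => congrFun (congrArg Fr.W hy) i)⟩
  comp h hg := ⟨(dUT E M).comp h.1 hg, fun i => (dUT E M).comp (h.2 i) hg⟩

theorem map_Fr_v {D : ℝ} {l : ℕ} : (dFr e D l).Map (dUT E M) Fr.v := fun h => h.1

theorem map_Fr_W {D : ℝ} {l : ℕ} (i : Fin l) : (dFr e D l).Map (dUT E M) (fun p => p.W i) :=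
  fun h => h.2 i

/-- plots of the unit tangent bundle have local frames -/
theorem lifts_Fr (F : Facts e) {D : ℝ} (hD : 0 < D) (hB : InjGE e D)
    (hdiam : ∀ p q : M, dist p q ≤ D) {l : ℕ}
    (hP : ∀ x y : M, dist x y = D → finrank ℝ (H775.Pl e D x y) = l + 1) :
    Co.IsQuo (dFr e D l) (dUT E M) Fr.v where
  map := map_Fr_v
  lift {E'} _ _ _ {u x} hu := by
    classical
    obtain ⟨W₀, hW₀⟩ := exists_isLF F hD hB hdiam hP (u x)
    obtain ⟨W, h1, h2, h3⟩ := WR.exists_frame F hD hB hdiam hP hu hW₀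
    let f : E' → Fr e D l := fun s => if h : IsLF e D (u s) (fun i => W i s) then
      ⟨(u s, fun i => W i s), h⟩ else ⟨(u x, W₀), hW₀⟩
    have hf : ∀ᶠ s in 𝓝 x, (f s).v = u s ∧ ∀ i, (f s).W i = W i s := by
      filter_upwards [h3] with s hs
      have h4 : f s = ⟨(u s, fun i => W i s), hs⟩ := dif_pos hs
      rw [h4]
      exact ⟨rfl, fun i => rfl⟩
    refine ⟨f, ⟨?_, fun i => ?_⟩, hf.mono fun s hs => hs.1⟩
    · exact (dUT E M).congr hu (hf.mono fun s hs => hs.1.symm)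
    · exact (dUT E M).congr (h2 i) (hf.mono fun s hs => (hs.2 i).symm)

/-- the combination of a frame -/
def cb {D : ℝ} {l : ℕ} (p : Fr e D l) (y : Eul l) : E := ∑ i, y i • vec' (p.W i)

theorem ip_W {D : ℝ} {l : ℕ} (p : Fr e D l) (i j : Fin l) :
    ip (foot p.v) (vec' (p.W i)) (vec' (p.W j)) = if i = j then 1 else 0 := by
  split_ifs with h
  · subst h
    exact (p.isLF.isL i).ip_self
  · exact p.isLF.orth i j h

theorem ip_cb {D : ℝ} {l : ℕ} (p : Fr e D l) (i : Fin l) (y : Eul l) :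
    ip (foot p.v) (vec' (p.W i)) (cb p y) = y i := by
  rw [cb, ip_sum_right]
  simp only [ip_smul_right', ip_W]
  simp

theorem ip_cb_cb {D : ℝ} {l : ℕ} (p : Fr e D l) (y z : Eul l) :
    ip (foot p.v) (cb p y) (cb p z) = inner ℝ y z := by
  conv_lhs => rw [cb, ip_sum_left]
  simp only [ip_smul_left', ip_cb]
  rw [EuclideanSpace.inner_eq_star_dotProduct]
  simp [dotProduct, mul_comm]

theorem cb_add {D : ℝ} {l : ℕ} (p : Fr e D l) (y z : Eul l) : cb p (y + z) = cb p y + cb p z := by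
  simp only [cb, PiLp.add_apply, add_smul, Finset.sum_add_distrib]

theorem cb_smul {D : ℝ} {l : ℕ} (p : Fr e D l) (c : ℝ) (y : Eul l) :
    cb p (c • y) = c • cb p y := by
  simp only [cb, PiLp.smul_apply, smul_eq_mul, mul_smul, Finset.smul_sum]

theorem cb_mem {D : ℝ} {l : ℕ} (p : Fr e D l) (y : Eul l) :
    (cb (E := E) p y : TangentSpace 𝓘(ℝ, E) (foot p.v)) ∈ Lf e D p.v := by
  have h1 : (∑ i, (y i • (vec' (E := E) (p.W i) : TangentSpace 𝓘(ℝ, E) (foot p.v))) :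
      TangentSpace 𝓘(ℝ, E) (foot p.v)) ∈ Lf e D p.v :=
    Submodule.sum_mem _ fun i _ => Submodule.smul_mem _ _ (p.isLF.isL i).mem_Lf
  exact h1

theorem nm_cb {D : ℝ} {l : ℕ} (p : Fr e D l) {y : Eul l} (hy : ‖y‖ = 1) :
    nm (foot p.v) (cb p y) = 1 := by
  refine nm_eq_one ?_
  rw [ip_cb_cb, real_inner_self_eq_norm_sq, hy, one_pow]

/-- unit combinations are pairs -/
def cbP (F : Facts e) {D : ℝ} (hD : 0 < D) (hB : InjGE e D)
    (hdiam : ∀ p q : M, dist p q ≤ D) {l : ℕ} (p : Fr e D l) (y : Eul l) (hy : ‖y‖ = 1) :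
    Pr e D :=
  ⟨(p.v, W.mk (foot p.v) (cb p y) (nm_cb p hy)),
    (isL_iff F hD hB hdiam (nm_cb p hy)).1 (cb_mem p y)⟩

theorem norm_nrm {l : ℕ} {y : Eul l} (hy : y ≠ 0) : ‖(‖y‖⁻¹ : ℝ) • y‖ = 1 := by
  rw [norm_smul, norm_inv, norm_norm, inv_mul_cancel₀ (norm_ne_zero_iff.2 hy)]

/-- a pair from a frame -/
def Fr.p0 {D : ℝ} {l : ℕ} [NeZero l] (p : Fr e D l) : Pr e D := ⟨(p.v, p.W 0), p.isLF.isL 0⟩

open Classical in
/-- the cone map -/
def cone (F : Facts e) {D : ℝ} (hD : 0 < D) (hB : InjGE e D)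
    (hdiam : ∀ p q : M, dist p q ≤ D) {l : ℕ} [NeZero l] (z : Fr e D l × Eul l) : Pr e D :=
  if h : z.2 ≠ 0 then cbP F hD hB hdiam z.1 ((‖z.2‖⁻¹ : ℝ) • z.2) (norm_nrm h) else z.1.p0

theorem cone_of (F : Facts e) {D : ℝ} (hD : 0 < D) (hB : InjGE e D)
    (hdiam : ∀ p q : M, dist p q ≤ D) {l : ℕ} [NeZero l] {z : Fr e D l × Eul l} (h : z.2 ≠ 0) :
    cone F hD hB hdiam z = cbP F hD hB hdiam z.1 ((‖z.2‖⁻¹ : ℝ) • z.2) (norm_nrm h) := dif_pos h

@[simp] theorem cone_v (F : Facts e) {D : ℝ} (hD : 0 < D) (hB : InjGE e D)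
    (hdiam : ∀ p q : M, dist p q ≤ D) {l : ℕ} [NeZero l] (z : Fr e D l × Eul l) :
    (cone F hD hB hdiam z).v = z.1.v := by
  by_cases h : z.2 ≠ 0
  · rw [cone_of F hD hB hdiam h]
    rfl
  · rw [cone, dif_neg h]
    rfl

theorem cone_w (F : Facts e) {D : ℝ} (hD : 0 < D) (hB : InjGE e D)
    (hdiam : ∀ p q : M, dist p q ≤ D) {l : ℕ} [NeZero l] (f : Fr e D l) {y : Eul l}
    (hy : ‖y‖ = 1) : (cone F hD hB hdiam (f, y)).w = W.mk (foot f.v) (cb f y) (nm_cb f hy) := by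
  have h0 : y ≠ 0 := by
    intro h
    rw [h, norm_zero] at hy
    exact zero_ne_one hy
  have h1 := cone_of F hD hB hdiam (z := (f, y)) h0
  rw [h1]
  refine mk_congr rfl ?_
  change cb f ((‖y‖⁻¹ : ℝ) • y) = cb f y
  rw [hy, inv_one, one_smul]

theorem sm_norm_inv {l : ℕ} {E' : Type} [NormedAddCommGroup E'] [NormedSpace ℝ E']
    {f : E' → Eul l} {x : E'} (hf : Sm f x) (h0 : f x ≠ 0) : Sm (fun y => (‖f y‖⁻¹ : ℝ)) x := by
  have h1 : ∀ᶠ y in 𝓝 x, f y ≠ 0 := hf.continuousAt.eventually_ne h0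
  filter_upwards [hf, h1] with y h2 h3
  exact (h2.norm ℝ h3).inv (norm_ne_zero_iff.2 h3)

/-- the cone map is smooth away from the vertex -/
theorem map_cone (F : Facts e) {D : ℝ} (hD : 0 < D) (hB : InjGE e D)
    (hdiam : ∀ p q : M, dist p q ≤ D) {l : ℕ} [NeZero l] :
    (((dFr e D l).prod (Dif.lin (Eul l))).on {z | z.2 ≠ 0}).Map (dPr e D)
      (cone F hD hB hdiam) := fun {E'} _ _ _ {u x} h => by
  obtain ⟨⟨⟨h1, h2⟩, h3⟩, h4⟩ := h
  have h3' : Sm (fun y => (u y).2) x := h3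
  have h5 : (u x).2 ≠ 0 := h4.self_of_nhds
  refine ⟨?_, ?_⟩
  · refine (dUT E M).congr h1 (Eventually.of_forall fun y => ?_)
    exact (cone_v F hD hB hdiam (u y)).symm
  · refine at_sum (u := fun y => (u y).1.v) (W := fun i y => (u y).1.W i)
      (c := fun i y => ((‖(u y).2‖⁻¹ : ℝ) • (u y).2) i) h1 h2
      (fun i => Eventually.of_forall fun y => ((u y).1.isLF.isL i).foot_eq) (fun i => ?_) ?_
    · have h6 : Sm (fun y => (‖(u y).2‖⁻¹ : ℝ) • (u y).2) x := by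
        filter_upwards [sm_norm_inv h3' h5, h3'] with y g1 g2 using g1.smul g2
      exact Sm.comp (f := fun z : Eul l => z i) (g := fun y => (‖(u y).2‖⁻¹ : ℝ) • (u y).2)
        (Sm.of_contDiff (EuclideanSpace.proj (𝕜 := ℝ) i).contDiff _) h6
    · filter_upwards [h4] with y hy
      have h7 := cone_of F hD hB hdiam (z := u y) hy
      refine ⟨?_, ?_⟩
      · change foot (cone F hD hB hdiam (u y)).w = _
        rw [h7]
        rfl
      · change vec' (cone F hD hB hdiam (u y)).w = _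
        rw [h7]
        rfl

end

end Vale.Agent.P231.S2II
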