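import Vale.Agent.P231.S2II.Fr

/-!
# P231, stage 2, S2-II (3): the bundle of spheres of `L` over the unit tangent bundle
-/

set_option maxSynthPendingDepth 3
set_option linter.unusedSectionVars false
set_option linter.unusedVariables false

open Bundle Manifold Set Filter Module MeasureTheory
open scoped ContDiff Manifold Topology

namespace Vale.Agent.P231.S2II

noncomputable section

open Vale.Agent.P234 Vale.Agent.P231 Vale.Agent.P231.Fm Vale.Agent.P231.W Vale.Agent.P231.WR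

/-! ### forms of degree zero -/

section Zero

variable {X : Type*} {D : Dif X}

theorem wf_of_isDeg {k : ℕ} {a : Form D} (h : Form.IsDeg k a) : WF.IsDeg a k :=
  fun {E} _ _ _ {u x} hu => by
    have h1 : WA.prt k (a.val u x) = a.val u x :=
      congrArg (fun b : Form D => b.val u x) h.part_eq
    rw [← h1]
    exact WA.prt_mem k _

theorem val_zero {a : Form D} (h : Form.IsDeg 0 a) {E : Type} [NormedAddCommGroup E]
    [NormedSpace ℝ E] [FiniteDimensional ℝ E] {u : E → X} {x : E} (hu : D.At u x) :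
    a.val u x = WF.ptv a (u x) • (1 : Lam E) := by
  rw [WF.val_of_isDeg_zero (wf_of_isDeg h) hu, Algebra.algebraMap_eq_smul_one]

end Zero

variable {E : Type*} [NormedAddCommGroup E] [NormedSpace ℝ E]
  {M : Type*} [MetricSpace M] [ChartedSpace E M]
  [RiemannianBundle (fun x : M => TangentSpace 𝓘(ℝ, E) x)]
  {e : ∀ x : M, TangentSpace 𝓘(ℝ, E) x → M}
  [FiniteDimensional ℝ E] [IsManifold 𝓘(ℝ, E) ∞ M]
  [IsContMDiffRiemannianBundle 𝓘(ℝ, E) ∞ E (fun x : M => TangentSpace 𝓘(ℝ, E) x)]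
  [CompactSpace M] [ConnectedSpace M] [IsRiemannianManifold 𝓘(ℝ, E) M]

/-! ### the transition functions -/

section Trans

variable {l : ℕ}

/-- the matrix unit -/
def mu (i j : Fin l) : Eul l →L[ℝ] Eul l :=
  (EuclideanSpace.proj (𝕜 := ℝ) j).smulRight (EuclideanSpace.single i (1 : ℝ))

/-- the linear map of a matrix -/
def mt (G : Fin l → Fin l → ℝ) : Eul l →L[ℝ] Eul l := ∑ i, ∑ j, G i j • mu i j

theorem mt_apply (G : Fin l → Fin l → ℝ) (y : Eul l) (i : Fin l) :
    mt G y i = ∑ j, G i j * y j := by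
  have h0 : ∀ a b, (mu a b y : Eul l) i = if a = i then y b else 0 := by
    intro a b
    have h1 : mu a b y = y b • EuclideanSpace.single a (1 : ℝ) := rfl
    rw [h1, PiLp.smul_apply, PiLp.single_apply, smul_eq_mul]
    by_cases h : a = i
    · subst h
      simp
    · rw [if_neg h, if_neg (Ne.symm h), mul_zero]
  have h2 : mt G y = ∑ a, ∑ b, G a b • mu a b y := by
    simp only [mt, ContinuousLinearMap.sum_apply, ContinuousLinearMap.smul_apply]
  have h3 : ∀ (ι : Type) (t : Finset ι) (c : ι → Eul l), (∑ a ∈ t, c a) i = ∑ a ∈ t, c a i := by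
    intro ι t c
    exact map_sum (EuclideanSpace.proj (𝕜 := ℝ) i) c t
  rw [h2, h3, Finset.sum_eq_single i]
  · rw [h3]
    refine Finset.sum_congr rfl fun b _ => ?_
    rw [PiLp.smul_apply, h0, if_pos rfl, smul_eq_mul]
  · intro a _ ha
    rw [h3]
    refine Finset.sum_eq_zero fun b _ => ?_
    rw [PiLp.smul_apply, h0, if_neg ha, smul_zero]
  · intro h
    exact absurd (Finset.mem_univ i) h

theorem sm_mt {E' : Type} [NormedAddCommGroup E'] [NormedSpace ℝ E'] {G : E' → Fin l → Fin l → ℝ}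
    {x : E'} (hG : ∀ i j, Sm (fun s => G s i j) x) : Sm (fun s => mt (G s)) x := by
  have h1 : ∀ᶠ s in 𝓝 x, ∀ i j, ContDiffAt ℝ ∞ (fun s => G s i j) s :=
    eventually_all.2 fun i => eventually_all.2 fun j => hG i j
  filter_upwards [h1] with s hs
  exact ContDiffAt.sum fun i _ => ContDiffAt.sum fun j _ => (hs i j).smul contDiffAt_const

end Trans

/-- the coordinates of a vector in a frame -/
def co {D : ℝ} {l : ℕ} (f : Fr e D l) (a : E) : Eul l :=
  WithLp.toLp 2 fun i => ip (foot f.v) (vec' (f.W i)) a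

theorem co_apply {D : ℝ} {l : ℕ} (f : Fr e D l) (a : E) (i : Fin l) :
    co f a i = ip (foot f.v) (vec' (f.W i)) a := rfl

theorem co_cb {D : ℝ} {l : ℕ} (f : Fr e D l) (y : Eul l) : co f (cb f y) = y := by
  ext i
  rw [co_apply, ip_cb]

/-- a vector of `L` is the combination of its coordinates -/
theorem cb_co (F : Facts e) {D : ℝ} (hD : 0 < D) (hB : InjGE e D)
    (hdiam : ∀ p q : M, dist p q ≤ D) {l : ℕ}
    (hP : ∀ x y : M, dist x y = D → finrank ℝ (H775.Pl e D x y) = l + 1) (f : Fr e D l) {a : E}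
    (ha : (a : TangentSpace 𝓘(ℝ, E) (foot f.v)) ∈ Lf e D f.v) : cb f (co f a) = a := by
  have h1 := (WR.mem_Lf (E := E)).1 ha
  have h2 := f.isLF.sum_eq F hD hB hdiam hP h1.1
  rw [h1.2, zero_smul, zero_add] at h2
  exact h2.symm

/-- the transition matrix of two frames -/
def tm {D : ℝ} {l : ℕ} (f f' : Fr e D l) (i j : Fin l) : ℝ :=
  ip (foot f.v) (vec' (f.W i)) (vec' (f'.W j))

theorem cb_tm (F : Facts e) {D : ℝ} (hD : 0 < D) (hB : InjGE e D)
    (hdiam : ∀ p q : M, dist p q ≤ D) {l : ℕ}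
    (hP : ∀ x y : M, dist x y = D → finrank ℝ (H775.Pl e D x y) = l + 1) {f f' : Fr e D l}
    (hv : f.v = f'.v) (y : Eul l) : cb f' y = cb f (mt (tm f f') y) := by
  have h1 : (cb (E := E) f' y : TangentSpace 𝓘(ℝ, E) (foot f.v)) ∈ Lf e D f.v := by
    rw [hv]
    exact cb_mem f' y
  rw [← cb_co F hD hB hdiam hP f h1]
  congr 1
  ext i
  rw [mt_apply, co_apply, cb, ip_sum_right]
  refine Finset.sum_congr rfl fun j _ => ?_
  rw [ip_smul_right', tm, mul_comm]

theorem norm_mt_tm (F : Facts e) {D : ℝ} (hD : 0 < D) (hB : InjGE e D)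
    (hdiam : ∀ p q : M, dist p q ≤ D) {l : ℕ}
    (hP : ∀ x y : M, dist x y = D → finrank ℝ (H775.Pl e D x y) = l + 1) {f f' : Fr e D l}
    (hv : f.v = f'.v) (y : Eul l) : ‖mt (tm f f') y‖ = ‖y‖ := by
  have h1 : ‖mt (tm f f') y‖ ^ 2 = ‖y‖ ^ 2 := by
    rw [← real_inner_self_eq_norm_sq, ← real_inner_self_eq_norm_sq, ← ip_cb_cb f,
      ← cb_tm F hD hB hdiam hP hv, hv, ip_cb_cb]
  exact (sq_eq_sq₀ (norm_nonneg _) (norm_nonneg _)).1 h1

theorem sm_tm {D : ℝ} {l : ℕ} {E' : Type} [NormedAddCommGroup E'] [NormedSpace ℝ E']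
    [FiniteDimensional ℝ E'] {f f' : E' → Fr e D l} {x : E'} (hf : (dFr e D l).At f x)
    (hf' : (dFr e D l).At f' x) (hff : Fr.v ∘ f =ᶠ[𝓝 x] Fr.v ∘ f') (i j : Fin l) :
    Sm (fun s => tm (f s) (f' s) i j) x := by
  refine sm_ip' (u := fun s => (f s).v) (hf.2 i) (hf'.2 j)
    (Eventually.of_forall fun s => ((f s).isLF.isL i).foot_eq) ?_
  filter_upwards [hff] with s hs
  have hs' : (f s).v = (f' s).v := hs
  rw [hs']
  exact ((f' s).isLF.isL j).foot_eq

/-- **the transition of two local frames** -/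
theorem exists_trans (F : Facts e) {D : ℝ} (hD : 0 < D) (hB : InjGE e D)
    (hdiam : ∀ p q : M, dist p q ≤ D) {l : ℕ} [NeZero l]
    (hP : ∀ x y : M, dist x y = D → finrank ℝ (H775.Pl e D x y) = l + 1)
    {E' : Type} [NormedAddCommGroup E'] [NormedSpace ℝ E'] [FiniteDimensional ℝ E']
    {f f' : E' → Fr e D l} {x : E'} (hf : (dFr e D l).At f x) (hf' : (dFr e D l).At f' x)
    (hff : Fr.v ∘ f =ᶠ[𝓝 x] Fr.v ∘ f') :
    ∃ g : E' → (Eul l →L[ℝ] Eul l), Sm g x ∧ (∀ᶠ s in 𝓝 x, ∀ y, ‖g s y‖ = ‖y‖) ∧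
      ∀ᶠ s in 𝓝 x, ∀ y, ‖y‖ = 1 →
        cone F hD hB hdiam (f' s, y) = cone F hD hB hdiam (f s, g s y) := by
  have h1 : ∀ᶠ s in 𝓝 x, ∀ y, ‖mt (tm (f s) (f' s)) y‖ = ‖y‖ := by
    filter_upwards [hff] with s hs
    have hs' : (f s).v = (f' s).v := hs
    exact fun y => norm_mt_tm F hD hB hdiam hP hs' y
  refine ⟨fun s => mt (tm (f s) (f' s)), sm_mt fun i j => sm_tm hf hf' hff i j, h1, ?_⟩
  filter_upwards [hff, h1] with s hs hs1 y hy
  have hs' : (f s).v = (f' s).v := hs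
  have hy' : ‖mt (tm (f s) (f' s)) y‖ = 1 := (hs1 y).trans hy
  refine Pr.ext' ?_ ?_
  · rw [cone_v, cone_v]
    exact hs'.symm
  · rw [cone_w F hD hB hdiam _ hy, cone_w F hD hB hdiam _ hy']
    refine mk_congr (by rw [hs']) ?_
    exact cb_tm F hD hB hdiam hP hs' y

/-- the cone map on the product with the sphere -/
theorem map_coneS (F : Facts e) {D : ℝ} (hD : 0 < D) (hB : InjGE e D)
    (hdiam : ∀ p q : M, dist p q ≤ D) {l : ℕ} [NeZero l] :
    (Co.SB (dFr e D l) (Eul l)).Map (dPr e D) (cone F hD hB hdiam) := fun {E'} _ _ _ {u x} h =>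
  map_cone F hD hB hdiam ⟨h.1, h.2.mono fun y hy => by
    have hy' : ‖(u y).2‖ = 1 := hy
    intro h0
    rw [h0, norm_zero] at hy'
    exact zero_ne_one hy'⟩

end

end Vale.Agent.P231.S2II
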