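import Vale.Agent.P231.H304.Radial
import Vale.Agent.P231.H304.CVb
import Vale.Agent.P231.Fm.DegSphere
import Vale.Agent.P231.FE.Orn

/-!
# P231, stage 2, S2-II (9): algebra for the value of the sphere integrals
-/

set_option maxSynthPendingDepth 3
set_option linter.unusedSectionVars false
set_option linter.unusedVariables false

open Set Filter Module MeasureTheory Topology Metric
open scoped ContDiff

namespace Vale.Agent.P231.S2II

open Vale.Agent.P231.Fm Vale.Agent.P231.FE Vale.Agent.P231.CV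

section Alg

variable {E F : Type*} [NormedAddCommGroup E] [NormedSpace ℝ E] [FiniteDimensional ℝ E]
  [NormedAddCommGroup F] [NormedSpace ℝ F] [FiniteDimensional ℝ F]

/-- pull-back by a rank one perturbation -/
theorem pull_add_smulRight (L : E →L[ℝ] F) (φ : E →L[ℝ] ℝ) (y : F) (w : Lam F) :
    Fm.pull (L + φ.smulRight y) w = Fm.pull L w + dx φ * Fm.pull L (iprod y w) := by
  induction w using Lam.ind with
  | h1 r => simp [iprod_algebraMap]
  | h2 a =>
    rw [pull_dx, pull_dx, iprod_dx, AlgHom.commutes, ← Algebra.commutes, ← Algebra.smul_def,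
      ← map_smul, ← map_add]
    congr 1
    ext z
    simp [mul_comm]
  | h3 a b ha hb =>
    rw [map_mul, map_mul, ha, hb, iprod_mul, map_add, map_mul, map_mul, mul_add, mul_add, add_mul,
      add_mul]
    have h1 : Fm.pull L a * (dx φ * Fm.pull L (iprod y b)) =
        dx φ * (Fm.pull L (inv a) * Fm.pull L (iprod y b)) := by
      rw [← mul_assoc, ← mul_assoc, pull_inv, dx_mul, Fm.inv_inv]
    have h2 : dx φ * Fm.pull L (iprod y a) * (dx φ * Fm.pull L (iprod y b)) = 0 := by
      rw [dx_mul, mul_assoc, ← mul_assoc (dx φ) (dx φ), dx_mul_self, zero_mul, mul_zero]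
    rw [h1, h2]
    noncomm_ring
  | h4 a b ha hb => rw [map_add, map_add, ha, hb, map_add, map_add]; noncomm_ring

/-- two contractions in rotated directions -/
theorem iprod_rot {c s : ℝ} (h : c ^ 2 + s ^ 2 = 1) (v w : F) (W : Lam F) :
    iprod (-s • v + c • w) (iprod (c • v + s • w) W) = iprod w (iprod v W) := by
  have h1 : iprod v (iprod w W) = -iprod w (iprod v W) := iprod_anticomm v w W
  have e1 : iprod (c • v + s • w) W = c • iprod v W + s • iprod w W := by
    rw [iprod_add, iprod_smul, iprod_smul]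
  have e2 : ∀ X : Lam F, iprod (-s • v + c • w) X = (-s) • iprod v X + c • iprod w X := fun X => by
    rw [iprod_add, iprod_smul, iprod_smul]
  rw [e1, map_add, map_smul, map_smul, e2, e2, iprod_self, iprod_self, h1]
  have h2 : s * s + c * c = 1 := by nlinarith
  have h3 : c • (-s • (0 : Lam F) + c • iprod w (iprod v W)) +
      s • (-s • -iprod w (iprod v W) + c • (0 : Lam F)) =
      (s * s + c * c) • iprod w (iprod v W) := by module
  rw [h3, h2, one_smul]

end Alg

section Nrm

variable {F : Type*} [NormedAddCommGroup F] [InnerProductSpace ℝ F] [FiniteDimensional ℝ F]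

theorem fderiv_rad {y : F} (hy : y ≠ 0) :
    fderiv ℝ (fun z : F => ‖z‖⁻¹ • z) y = ‖y‖⁻¹ • ContinuousLinearMap.id ℝ F +
      (fderiv ℝ (fun z : F => ‖z‖⁻¹) y).smulRight y := by
  have hn : DifferentiableAt ℝ (fun z : F => ‖z‖⁻¹) y :=
    (differentiableAt_id.norm ℝ hy).inv (norm_ne_zero_iff.2 hy)
  exact (hn.hasFDerivAt.smul (hasFDerivAt_id y)).fderiv

/-- the pull-back of the volume form of the sphere by the normalisation -/
theorem pull_rad_iprod {m : ℕ} {W : Lam F} (hW : Q.IsDeg m W) {y : F} (hy : y ≠ 0) :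
    Fm.pull (fderiv ℝ (fun z : F => ‖z‖⁻¹ • z) y) (iprod (‖y‖⁻¹ • y) W) =
      (‖y‖ ^ m)⁻¹ • iprod y W := by
  rw [fderiv_rad hy, pull_add_smulRight, iprod_smul, map_smul (iprod y), iprod_self, smul_zero,
    map_zero, mul_zero, add_zero, map_smul]
  cases m with
  | zero => rw [hW.iprod_zero, map_zero, smul_zero, smul_zero]
  | succ m =>
    have h1 : Fm.pull (‖y‖⁻¹ • ContinuousLinearMap.id ℝ F) (iprod y W) =
        ‖y‖⁻¹ ^ m • iprod y W := (hW.iprod y).pull_hom _
    rw [h1, smul_smul, ← pow_succ', inv_pow]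

end Nrm

/-- the integral of the solid angle form -/
theorem integral_solid {m : ℕ} (hm : 0 < m) {r : EuclideanSpace ℝ (Fin m) → ℝ}
    {K : Set (EuclideanSpace ℝ (Fin m))} (hr : Q.Cut r K)
    (b : Basis (Fin m) ℝ (EuclideanSpace ℝ (Fin m))) (W : Lam (EuclideanSpace ℝ (Fin m))) :
    ∫ y, evalForm (dx (fderiv ℝ r y) * ((‖y‖ ^ m)⁻¹ • iprod y W)) b =
      m * (volume (ball (0 : EuclideanSpace ℝ (Fin m)) 1)).toReal * evalForm W b := by
  have h1 : ∀ y, evalForm (dx (fderiv ℝ r y) * ((‖y‖ ^ m)⁻¹ • iprod y W)) b =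
      ((fderiv ℝ r y y) * (‖y‖ ^ m)⁻¹) * evalForm W b := fun y => by
    rw [mul_smul_comm, ← evalL_apply, map_smul, evalL_apply,
      evalForm_dx_mul_iprod (by rw [finrank_euclideanSpace_fin]), smul_eq_mul]
    ring
  simp only [h1]
  rw [integral_mul_const, radial_id hm hr]

/-- the covector of an orthonormal family on the family -/
theorem evalForm_wdg {F : Type*} [NormedAddCommGroup F] [InnerProductSpace ℝ F]
    [FiniteDimensional ℝ F] {m : ℕ} {g : Fin m → F} (hg : Orthonormal ℝ g) :
    evalForm (wdg g) g = 1 := by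
  have h1 : wdg g = cprod fun i => dx (innerSL ℝ (g i)) := rfl
  rw [h1, evalForm_cprod]
  have h2 : (Matrix.of fun i j => innerSL ℝ (g j) (g i)) = (1 : Matrix (Fin m) (Fin m) ℝ) := by
    ext i j
    rw [Matrix.of_apply, Matrix.one_apply, innerSL_apply_apply, orthonormal_iff_ite.1 hg j i]
    exact if_congr eq_comm rfl rfl
  rw [h2, Matrix.det_one]

end Vale.Agent.P231.S2II
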