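import Vale.Agent.P231.S2II.ValB
import Vale.Agent.P231.S2II.ValA
import Vale.Agent.P231.FE.B0

/-!
# P231, stage 2, S2-II (12): the form `b₀` on the sphere of a frame over the base point
-/

set_option maxSynthPendingDepth 3
set_option linter.unusedSectionVars false
set_option linter.unusedVariables false

open Bundle Manifold Set Filter Module MeasureTheory
open scoped ContDiff Manifold Topology

namespace Vale.Agent.P231.S2II

noncomputable section

open Vale.Agent.P234 Vale.Agent.P231 Vale.Agent.P231.Fm Vale.Agent.P231.W Vale.Agent.P231.WR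

variable {E : Type*} [NormedAddCommGroup E] [NormedSpace ℝ E]
  {M : Type*} [MetricSpace M] [ChartedSpace E M]
  [RiemannianBundle (fun x : M => TangentSpace 𝓘(ℝ, E) x)]
  {e : ∀ x : M, TangentSpace 𝓘(ℝ, E) x → M}
  [FiniteDimensional ℝ E] [IsManifold 𝓘(ℝ, E) ∞ M]
  [IsContMDiffRiemannianBundle 𝓘(ℝ, E) ∞ E (fun x : M => TangentSpace 𝓘(ℝ, E) x)]
  [CompactSpace M] [ConnectedSpace M] [IsRiemannianManifold 𝓘(ℝ, E) M]

section Plot

variable {D : ℝ} {l : ℕ}

/-- the combination of a frame, as a tangent vector -/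
def cbV (f : Fr e D l) (y : Eul l) : TangentSpace 𝓘(ℝ, E) (foot f.v) := cb (E := E) f y

theorem norm_cbV (f : Fr e D l) (y : Eul l) : ‖cbV f y‖ = ‖y‖ := by
  have h1 : ip (foot f.v) (cb f y) (cb f y) = ‖cbV f y‖ ^ 2 :=
    real_inner_self_eq_norm_sq (F := TangentSpace 𝓘(ℝ, E) (foot f.v)) _
  rw [ip_cb_cb, real_inner_self_eq_norm_sq] at h1
  exact ((pow_left_inj₀ (norm_nonneg _) (norm_nonneg _) two_ne_zero).1 h1).symm

/-- the linear isometry of a frame -/
def cbT (f : Fr e D l) : Eul l →ₗᵢ[ℝ] TangentSpace 𝓘(ℝ, E) (foot f.v) where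
  toFun y := cbV f y
  map_add' := cb_add f
  map_smul' := cb_smul f
  norm_map' := norm_cbV f

theorem cbT_apply (f : Fr e D l) (y : Eul l) : cbT f y = cbV f y := rfl

theorem norm_tv (v : UT E M) : ‖(tv v : TangentSpace 𝓘(ℝ, E) (foot v))‖ = 1 := nm_vec' v

theorem inner_tv_cbT (f : Fr e D l) (y : Eul l) : inner ℝ (tv f.v) (cbT f y) = (0 : ℝ) := by
  have h1 : ip (foot f.v) (vec' f.v) (cb f y) = 0 := by
    rw [cb, ip_sum_right]
    refine Finset.sum_eq_zero fun i _ => ?_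
    rw [ip_smul_right', (f.isLF.isL i).orth, mul_zero]
  exact h1

/-- the normalisation of the vector space of the frame -/
def nz (l : ℕ) (y : Eul l) : Eul l := ‖y‖⁻¹ • y

theorem sm_nz {y : Eul l} (hy : y ≠ 0) : ContDiffAt ℝ ∞ (nz l) y :=
  (((contDiffAt_norm ℝ hy).inv (norm_ne_zero_iff.2 hy)).smul contDiffAt_id)

theorem norm_nz {y : Eul l} (hy : y ≠ 0) : ‖nz l y‖ = 1 := norm_nrm hy

/-- the family of unit vectors -/
def uu (f : Fr e D l) (q : Eul l × ℝ) : TangentSpace 𝓘(ℝ, E) (foot f.v) :=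
  Real.cos q.2 • tv f.v + Real.sin q.2 • cbT f (nz l q.1)

theorem norm_uu (f : Fr e D l) {q : Eul l × ℝ} (hq : q.1 ≠ 0) : ‖uu f q‖ = 1 := by
  have h1 : ‖uu f q‖ ^ 2 = 1 := by
    rw [← real_inner_self_eq_norm_sq, uu, inner_add_left, inner_add_right, inner_add_right,
      real_inner_smul_left, real_inner_smul_left, real_inner_smul_left, real_inner_smul_left,
      real_inner_smul_right, real_inner_smul_right, real_inner_smul_right,
      real_inner_smul_right, real_inner_comm (tv f.v) (cbT f _), inner_tv_cbT,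
      real_inner_self_eq_norm_sq, real_inner_self_eq_norm_sq, norm_tv, (cbT f).norm_map,
      norm_nz hq]
    nlinarith [Real.cos_sq_add_sin_sq q.2]
  nlinarith [norm_nonneg (uu f q)]

theorem sm_uu (f : Fr e D l) {q : Eul l × ℝ} (hq : q.1 ≠ 0) : Sm (uu f) q := by
  have h1 : ∀ᶠ q' in 𝓝 q, q'.1 ≠ 0 := continuous_fst.continuousAt.eventually_ne hq
  filter_upwards [h1] with q' hq'
  have h2 : ContDiffAt ℝ ∞ (fun q : Eul l × ℝ => cbT f (nz l q.1)) q' :=
    (cbT f).toContinuousLinearMap.contDiff.contDiffAt.comp q'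
      ((sm_nz hq').comp q' contDiffAt_fst)
  exact ((Real.contDiff_cos.contDiffAt.comp q' contDiffAt_snd).smul contDiffAt_const).add
    ((Real.contDiff_sin.contDiffAt.comp q' contDiffAt_snd).smul h2)

theorem hasFDerivAt_uu (f : Fr e D l) {y : Eul l} (hy : y ≠ 0) (t : ℝ) :
    HasFDerivAt (uu f) ((((-Real.sin t) • ContinuousLinearMap.snd ℝ (Eul l) ℝ).smulRight
      (tv f.v)) + (Real.sin t • (((cbT f).toContinuousLinearMap.comp (fderiv ℝ (nz l) y)).comp
        (ContinuousLinearMap.fst ℝ (Eul l) ℝ)) +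
        (Real.cos t • ContinuousLinearMap.snd ℝ (Eul l) ℝ).smulRight (cbT f (nz l y)))) (y, t) := by
  have h1 : HasFDerivAt (fun q : Eul l × ℝ => Real.cos q.2)
      ((-Real.sin t) • ContinuousLinearMap.snd ℝ (Eul l) ℝ) (y, t) :=
    (Real.hasDerivAt_cos t).comp_hasFDerivAt (f := Prod.snd) (y, t) hasFDerivAt_snd
  have h2 : HasFDerivAt (fun q : Eul l × ℝ => Real.sin q.2)
      (Real.cos t • ContinuousLinearMap.snd ℝ (Eul l) ℝ) (y, t) :=
    (Real.hasDerivAt_sin t).comp_hasFDerivAt (f := Prod.snd) (y, t) hasFDerivAt_snd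
  have h3 : HasFDerivAt (fun q : Eul l × ℝ => cbT f (nz l q.1))
      (((cbT f).toContinuousLinearMap.comp (fderiv ℝ (nz l) y)).comp
        (ContinuousLinearMap.fst ℝ (Eul l) ℝ)) (y, t) := by
    have h4 : HasFDerivAt (fun z : Eul l => cbT f (nz l z))
        ((cbT f).toContinuousLinearMap.comp (fderiv ℝ (nz l) y)) y :=
      (cbT f).toContinuousLinearMap.hasFDerivAt.comp y
        ((sm_nz hy).differentiableAt (by simp)).hasFDerivAt
    exact HasFDerivAt.comp (y, t) (f := (Prod.fst : Eul l × ℝ → Eul l)) h4 hasFDerivAt_fst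
  exact (h1.smul_const (tv f.v)).add (h2.smul h3)

theorem fderiv_uu_t (f : Fr e D l) {y : Eul l} (hy : y ≠ 0) (t : ℝ) :
    fderiv ℝ (uu f) (y, t) (0, 1) = -Real.sin t • tv f.v + Real.cos t • cbT f (nz l y) := by
  rw [(hasFDerivAt_uu f hy t).fderiv]
  simp

theorem fderiv_uu_x (f : Fr e D l) {y : Eul l} (hy : y ≠ 0) (t : ℝ) :
    (fderiv ℝ (uu f) (y, t)).comp (ContinuousLinearMap.inl ℝ (Eul l) ℝ) =
      (cbT f).toContinuousLinearMap.comp
        ((Real.sin t • ContinuousLinearMap.id ℝ (Eul l)).comp (fderiv ℝ (nz l) y)) := by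
  rw [(hasFDerivAt_uu f hy t).fderiv]
  ext z
  simp

end Plot

end

end Vale.Agent.P231.S2II
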