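import Vale.Agent.P231.S2II.ValC

/-!
# P231, stage 2, S2-II (13): the form `b₀` on the sphere of a frame over the base point
-/

set_option maxSynthPendingDepth 3
set_option linter.unusedSectionVars false
set_option linter.unusedVariables false

open Bundle Manifold Set Filter Module MeasureTheory
open scoped ContDiff Manifold Topology

namespace Vale.Agent.P231.S2II

noncomputable section

open Vale.Agent.P234 Vale.Agent.P231 Vale.Agent.P231.Fm Vale.Agent.P231.W Vale.Agent.P231.WR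

variable {E : Type*} [NormedAddCommGroup E] [NormedSpace ℝ E]
  {M : Type*} [MetricSpace M] [ChartedSpace E M]
  [RiemannianBundle (fun x : M => TangentSpace 𝓘(ℝ, E) x)]
  {e : ∀ x : M, TangentSpace 𝓘(ℝ, E) x → M}
  [FiniteDimensional ℝ E] [IsManifold 𝓘(ℝ, E) ∞ M]
  [IsContMDiffRiemannianBundle 𝓘(ℝ, E) ∞ E (fun x : M => TangentSpace 𝓘(ℝ, E) x)]
  [CompactSpace M] [ConnectedSpace M] [IsRiemannianManifold 𝓘(ℝ, E) M]
  (F : Facts e) {D : ℝ} (hD : 0 < D) (hB : InjGE e D) (hdiam : ∀ p q : M, dist p q ≤ D)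
  {n : ℕ}

/-- the circle family of a frame -/
theorem U_spec {l : ℕ} [NeZero l] (f : Fr e D l) {q : Eul l × ℝ} (hq : q.1 ≠ 0) :
    foot (cv e D (fam F hD hB hdiam f q.1, q.2)) = foot f.v ∧
      (vec' (cv e D (fam F hD hB hdiam f q.1, q.2)) : E) = uu f q := by
  have h1 : (fam F hD hB hdiam f q.1).v = f.v := cone_v F hD hB hdiam _
  have h2 : (fam F hD hB hdiam f q.1).w = W.mk (foot f.v) (cb f (nz l q.1))
      (nm_cb f (norm_nz hq)) := cone_w F hD hB hdiam f (norm_nz hq)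
  refine ⟨?_, ?_⟩
  · change foot (fam F hD hB hdiam f q.1).v = _
    rw [h1]
  change vec' (rv (fam F hD hB hdiam f q.1) q.2) = _
  rw [vec'_rv, h1, h2]
  rfl

theorem e_congr {x y : M} {a b : E} (h : x = y) (h' : a = b) : e x (D • a : E) = e y (D • b : E) := by
  subst h; subst h'; rfl

include F hD hB hdiam in
/-- all the vectors of the circles have the same cut point -/
theorem e_uu {l : ℕ} [NeZero l] (f : Fr e D l) {q : Eul l × ℝ} (hq : q.1 ≠ 0) :
    e (foot f.v) (D • uu f q) = e (foot f.v) (D • tv f.v) := by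
  have h1 := bar_rv F hD hB hdiam (fam F hD hB hdiam f q.1) q.2
  have h2 : (fam F hD hB hdiam f q.1).v = f.v := cone_v F hD hB hdiam _
  rw [h2] at h1
  obtain ⟨h3, h4⟩ := U_spec F hD hB hdiam f hq
  exact (e_congr h3.symm h4.symm).trans h1

section Main

variable {f : Fr e D (2 * n + 1)}
  {Pi : TangentSpace 𝓘(ℝ, E) (foot f.v) →
    TangentSpace 𝓘(ℝ, E) (foot f.v) →L[ℝ] TangentSpace 𝓘(ℝ, E) (foot f.v)}
  {o : TangentSpace 𝓘(ℝ, E) (foot f.v) → Fm.Lam (TangentSpace 𝓘(ℝ, E) (foot f.v))}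
  {ρ : TangentSpace 𝓘(ℝ, E) (foot f.v) → ℝ} {r₀ : ℝ}

/-- the top degree form on the vector space of the frame -/
def tf (f : Fr e D (2 * n + 1))
    (o : TangentSpace 𝓘(ℝ, E) (foot f.v) → Fm.Lam (TangentSpace 𝓘(ℝ, E) (foot f.v))) :
    Lam (Eul (2 * n + 1)) :=
  Fm.pull (cbT f).toContinuousLinearMap (iprod (tv f.v) (o (tv f.v)))

theorem isDeg_wdg {V : Type*} [NormedAddCommGroup V] [InnerProductSpace ℝ V]
    [FiniteDimensional ℝ V] {m : ℕ} (g : Fin m → V) : Q.IsDeg m (FE.wdg g) := by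
  induction m with
  | zero =>
    rw [FE.wdg, List.ofFn_zero, List.prod_nil]
    unfold Q.IsDeg
    rw [map_one, pow_zero, one_smul]
  | succ m ih =>
    rw [FE.wdg_succ]
    have h1 := (Q.isDeg_dx (innerSL ℝ (g 0))).mul (ih fun a => g a.succ)
    rwa [add_comm 1 m] at h1

theorem isDeg_tf (hJ : FE.LineP e D (foot f.v) n Pi o) : Q.IsDeg (2 * n + 1) (tf f o) := by
  obtain ⟨g, -, -, hg⟩ := hJ.os.or.frame (tv f.v) (FE.ne_zero_of_unit (norm_tv f.v))
  rw [tf, hg]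
  exact ((isDeg_wdg g).iprod _).pull _

/-- the integrand of the rotation integral -/
theorem co_val (hl : ∀ x y : M, dist x y = D → finrank ℝ (H775.Pl e D x y) = 2 * n + 2)
    (hJ : FE.LineP e D (foot f.v) n Pi o) (hρ : WE.Rho e D (foot f.v) ρ r₀) (a : ℝ)
    {y : Eul (2 * n + 1)} (hy : y ≠ 0) (t : ℝ) :
    H584.co (Form.pull (cv e D) (map_cv F hD hB hdiam)
      (B0 F D (FE.FF F hD hB hdiam hl hJ hρ a))) (fam F hD hB hdiam f) y t =
      ((Real.sin t) ^ (2 * n)) • ((a * ((2 * n + 1).factorial : ℝ)) •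
        ((‖y‖ ^ (2 * n + 1))⁻¹ • iprod y (tf f o))) := by
  have hyt : ∀ᶠ q in 𝓝 ((y, t) : Eul (2 * n + 1) × ℝ), q.1 ≠ 0 :=
    continuous_fst.continuousAt.eventually_ne hy
  have hv0 := FE.ne_zero_of_unit (norm_tv f.v)
  have hu1 : ‖uu f (y, t)‖ = 1 := norm_uu f (q := (y, t)) hy
  have h1 : ∀ᶠ q in 𝓝 ((y, t) : Eul (2 * n + 1) × ℝ), Pi (uu f (y, t)) (uu f q) = uu f q := by
    filter_upwards [hyt] with q hq
    refine (hJ.cut _ _ hu1 (norm_uu f hq)).1 ?_
    rw [e_uu F hD hB hdiam f (q := (y, t)) hy, e_uu F hD hB hdiam f hq]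
  have h2 : Pi (tv f.v) (uu f (y, t)) = uu f (y, t) :=
    (hJ.cut _ _ (norm_tv f.v) hu1).1 (e_uu F hD hB hdiam f (q := (y, t)) hy).symm
  have h3 : o (uu f (y, t)) = o (tv f.v) :=
    hJ.os.or.rel _ _ hv0 (FE.ne_zero_of_unit hu1) h2
  have hat : ((dPr e D).prod (Dif.lin ℝ)).At (Form.cyl (fam F hD hB hdiam f)) (y, t) :=
    Form.cyl_at (fam_at F hD hB hdiam f hy) t
  have h4 := FE.B0_fibre F hD hB hdiam hl hJ hρ a (u := uu f)
    (U := cv e D ∘ Form.cyl (fam F hD hB hdiam f)) (x := (y, t)) (sm_uu f hy)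
    (by
      filter_upwards [hyt] with q hq
      exact U_spec F hD hB hdiam f hq) h1
  have h5 : (Form.pull (cv e D) (map_cv F hD hB hdiam)
      (B0 F D (FE.FF F hD hB hdiam hl hJ hρ a))).val (Form.cyl (fam F hD hB hdiam f)) (y, t) =
      (a * ((2 * n + 1).factorial : ℝ)) • Fm.pull (fderiv ℝ (uu f) (y, t))
        (iprod (uu f (y, t)) (o (tv f.v))) := by
    rw [Form.pull_val _ _ hat, ← h3]
    exact h4
  rw [H584.co, h5, map_smul, at1_apply, at0_apply, pull_iprod, ← pull_comp_apply,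
    fderiv_uu_x f hy, fderiv_uu_t f hy]
  have h6 : uu f (y, t) = Real.cos t • tv f.v + Real.sin t • cbT f (nz _ y) := rfl
  have h7 : iprod (cbT f (nz _ y)) (iprod (tv f.v) (o (tv f.v))) =
      iprod ((cbT f).toContinuousLinearMap (nz _ y)) (iprod (tv f.v) (o (tv f.v))) := rfl
  rw [h6, iprod_rot (Real.cos_sq_add_sin_sq t), h7, pull_comp_apply, ← pull_iprod,
    pull_comp_apply]
  change (a * ((2 * n + 1).factorial : ℝ)) • Fm.pull (fderiv ℝ (nz _) y) (Fm.pull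
    (Q.hom (Eul (2 * n + 1)) (Real.sin t)) (iprod (nz _ y) (tf f o))) = _
  rw [((isDeg_tf hJ).iprod _).pull_hom, map_smul]
  have h8 : Fm.pull (fderiv ℝ (nz _) y) (iprod (nz _ y) (tf f o)) =
      (‖y‖ ^ (2 * n + 1))⁻¹ • iprod y (tf f o) := pull_rad_iprod (isDeg_tf hJ) hy
  rw [h8]
  module

end Main

end

end Vale.Agent.P231.S2II
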