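import Mathlib

/-!
# P231, stage 2, S2-II (10): the numbers
-/

open Set Filter MeasureTheory Topology Metric Finset

namespace Vale.Agent.P231.S2II

theorem integral_sin_pow_two_pi (n : ℕ) :
    ∫ t in (0 : ℝ)..(2 * Real.pi), Real.sin t ^ (2 * n) =
      2 * (Real.pi * ∏ i ∈ range n, (2 * (i : ℝ) + 1) / (2 * i + 2)) := by
  have hc : Continuous fun t : ℝ => Real.sin t ^ (2 * n) := by fun_prop
  rw [← integral_sin_pow_even, ← intervalIntegral.integral_add_adjacent_intervals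
    (hc.intervalIntegrable 0 Real.pi) (hc.intervalIntegrable Real.pi (2 * Real.pi))]
  have h1 := intervalIntegral.integral_comp_add_right (a := 0) (b := Real.pi)
    (fun t : ℝ => Real.sin t ^ (2 * n)) Real.pi
  rw [zero_add, ← two_mul] at h1
  rw [← h1]
  have h2 : ∀ t : ℝ, Real.sin (t + Real.pi) ^ (2 * n) = Real.sin t ^ (2 * n) := fun t => by
    rw [Real.sin_add_pi, Even.neg_pow ⟨n, two_mul n⟩]
  simp only [h2]
  ring

theorem gamma_half (n : ℕ) : Real.Gamma ((n : ℝ) + 1 / 2) =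
    √Real.pi * (n.factorial * ∏ i ∈ range n, (2 * (i : ℝ) + 1) / (2 * i + 2)) := by
  induction n with
  | zero =>
    rw [Nat.cast_zero, zero_add, Real.Gamma_one_half_eq]
    simp
  | succ n ih =>
    have h1 : ((n + 1 : ℕ) : ℝ) + 1 / 2 = ((n : ℝ) + 1 / 2) + 1 := by push_cast; ring
    rw [h1, Real.Gamma_add_one (by positivity), ih, prod_range_succ, Nat.factorial_succ]
    push_cast
    have h2 : (2 * (n : ℝ) + 2) ≠ 0 := by positivity
    field_simp

/-- `m vol(B^m)` is the area of the unit sphere of `ℝ^m` -/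
noncomputable def area (m : ℕ) : ℝ :=
  m * (volume (ball (0 : EuclideanSpace ℝ (Fin m)) 1)).toReal

theorem area_eq {m : ℕ} (hm : 0 < m) :
    area m = 2 * √Real.pi ^ m / Real.Gamma ((m : ℝ) / 2) := by
  haveI : Nonempty (Fin m) := ⟨⟨0, hm⟩⟩
  have h0 : (0 : ℝ) < (m : ℝ) / 2 := by positivity
  have h1 : 0 < Real.Gamma ((m : ℝ) / 2) := Real.Gamma_pos_of_pos h0
  rw [area, EuclideanSpace.volume_ball, ENNReal.ofReal_one, one_pow, one_mul, Fintype.card_fin,
    Real.Gamma_add_one h0.ne', ENNReal.toReal_ofReal (by positivity)]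
  field_simp

theorem area_pos {m : ℕ} (hm : 0 < m) : 0 < area m := by
  have h0 : (0 : ℝ) < (m : ℝ) / 2 := by positivity
  have h1 : 0 < Real.Gamma ((m : ℝ) / 2) := Real.Gamma_pos_of_pos h0
  rw [area_eq hm]
  positivity

/-- **the recursion of the areas of the spheres** -/
theorem area_rec (n : ℕ) : (∫ t in (0 : ℝ)..(2 * Real.pi), Real.sin t ^ (2 * n)) *
    area (2 * n + 1) = 2 * area (2 * n + 2) := by
  have h1 : (((2 * n + 1 : ℕ) : ℝ)) / 2 = (n : ℝ) + 1 / 2 := by push_cast; ring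
  have h2 : (((2 * n + 2 : ℕ) : ℝ)) / 2 = (n : ℝ) + 1 := by push_cast; ring
  have h3 : (0 : ℝ) < ∏ i ∈ range n, (2 * (i : ℝ) + 1) / (2 * i + 2) :=
    prod_pos fun i _ => by positivity
  have h4 : 0 < √Real.pi := Real.sqrt_pos.2 Real.pi_pos
  have h5 : √Real.pi * √Real.pi = Real.pi := Real.mul_self_sqrt Real.pi_pos.le
  have h6 : (n.factorial : ℝ) ≠ 0 := by positivity
  rw [integral_sin_pow_two_pi, area_eq (by omega), area_eq (by omega), h1, h2, gamma_half,
    Real.Gamma_nat_eq_factorial, pow_succ, pow_succ (√Real.pi) (2 * n + 1), pow_succ]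
  generalize √Real.pi = s at *
  rw [← h5]
  field_simp

theorem sin_integral_pos (n : ℕ) :
    0 < ∫ t in (0 : ℝ)..(2 * Real.pi), Real.sin t ^ (2 * n) := by
  rw [integral_sin_pow_two_pi]
  have h3 : (0 : ℝ) < ∏ i ∈ range n, (2 * (i : ℝ) + 1) / (2 * i + 2) :=
    prod_pos fun i _ => by positivity
  have := Real.pi_pos
  positivity

end Vale.Agent.P231.S2II
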