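import Vale.Agent.P231.S2II.ValD
import Vale.Agent.P231.S2II.ValN
import Vale.Agent.P231.TW.Ang

/-!
# P231, stage 2, S2-II (14): the value `2 κ` of the sphere integrals of `b₀`
-/

set_option maxSynthPendingDepth 3
set_option linter.unusedSectionVars false
set_option linter.unusedVariables false

open Bundle Manifold Set Filter Module MeasureTheory
open scoped ContDiff Manifold Topology

namespace Vale.Agent.P231.S2II

noncomputable section

open Vale.Agent.P234 Vale.Agent.P231 Vale.Agent.P231.Fm Vale.Agent.P231.W Vale.Agent.P231.WR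

section Kappa

variable {V : Type*} [NormedAddCommGroup V] [InnerProductSpace ℝ V] [FiniteDimensional ℝ V]

/-- the orientation form on an orthonormal basis of the plane -/
theorem abs_evalForm_leaf {m : ℕ} {Pi : V → V →L[ℝ] V} {o : V → Lam V} (hs : FE.Spread m Pi)
    (ho : FE.Orient m Pi o) {x : V} (hx : x ≠ 0) {g : Fin m → V} (hg : Orthonormal ℝ g)
    (hgx : ∀ i, Pi x (g i) = g i) : |evalForm (o x) g| = 1 := by
  obtain ⟨g', hg', hgx', h1⟩ := ho.frame x hx
  have h2 := FE.span_eq (hs.rank x hx) hg' fun i => ⟨g' i, hgx' i⟩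
  have h3 : ∀ i, g i ∈ Submodule.span ℝ (Set.range g') := fun i => by
    rw [h2]
    exact ⟨g i, hgx i⟩
  have h4 := evalForm_wdg hg
  rw [h1]
  rcases FE.wdg_pm hg hg' h3 with h5 | h5
  · rw [← h5, h4, abs_one]
  · have h6 : FE.wdg g' = -FE.wdg g := by rw [h5, neg_neg]
    rw [h6, ← evalL_apply, map_neg, evalL_apply, h4, abs_neg, abs_one]

/-- **the integral of the angular form over the unit sphere of a plane of the spread** -/
theorem abs_JJ_psi {n : ℕ} {Pi : V → V →L[ℝ] V} {o : V → Lam V} (h : FE.OS n Pi o) (a : ℝ)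
    (T : EuclideanSpace ℝ (Fin (2 * n + 2)) →ₗᵢ[ℝ] V) {x : V} (hx : x ≠ 0)
    (hT : ∀ w, Pi x (T w) = T w) :
    |TW.JJ (TW.bE (2 * n + 2)) (fun y => Q.dR rst y * pb T (FE.psi n a Pi o) y)| =
      |a * ((2 * n + 1).factorial : ℝ)| * area (2 * n + 2) := by
  have hrel : ∀ y : EuclideanSpace ℝ (Fin (2 * n + 2)), y ≠ 0 →
      T y ≠ 0 ∧ Pi (T y) = Pi x ∧ o (T y) = o x := fun y hy => by
    have h1 : T y ≠ 0 := fun h0 => hy (T.injective (by rw [h0, map_zero]))
    exact ⟨h1, h.sp.rel x _ hx h1 (hT y), h.or.rel x _ hx h1 (hT y)⟩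
  set W := Fm.pull T.toContinuousLinearMap (o x) with hW
  have h1 : ∀ y, Q.dR rst y * pb T (FE.psi n a Pi o) y =
      (a * ((2 * n + 1).factorial : ℝ)) •
        (dx (fderiv ℝ rst y) * ((‖y‖ ^ (2 * n + 2))⁻¹ • iprod y W)) := fun y => by
    by_cases hy : y = 0
    · subst hy
      have h2 : fderiv ℝ (rst : EuclideanSpace ℝ (Fin (2 * n + 2)) → ℝ) 0 = 0 := by
        rw [(rst_zero (x := (0 : EuclideanSpace ℝ (Fin (2 * n + 2)))) (by simp)).fderiv_eq,
          fderiv_const_apply]
      rw [Q.dR, h2, map_zero, zero_mul, zero_mul, smul_zero]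
    · obtain ⟨h2, h3, h4⟩ := hrel y hy
      have h5 := h.psi_fibre a (f := T) (x := y) T.toContinuousLinearMap.differentiableAt h2
        (Eventually.of_forall fun z => by rw [h3, hT])
      have h6 : fderiv ℝ T y = T.toContinuousLinearMap := T.toContinuousLinearMap.fderiv
      rw [h5, h6, h4, T.norm_map]
      have h7 : Fm.pull T.toContinuousLinearMap (iprod (T y) (o x)) = iprod y W :=
        (pull_iprod T.toContinuousLinearMap y (o x)).symm
      rw [h7, Q.dR, mul_smul_comm, mul_smul_comm, smul_smul]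
  have h8 := integral_solid (m := 2 * n + 2) (by omega) cut_rst (TW.bE (2 * n + 2)) W
  rw [← area] at h8
  unfold TW.JJ
  have h9 : (TW.bE (2 * n + 2)).addHaar = volume :=
    (EuclideanSpace.basisFun (Fin (2 * n + 2)) ℝ).addHaar_eq_volume
  have h10 : ∀ y, evalForm (Q.dR rst y * pb T (FE.psi n a Pi o) y) (TW.bE (2 * n + 2)) =
      (a * ((2 * n + 1).factorial : ℝ)) * evalForm (dx (fderiv ℝ rst y) *
        ((‖y‖ ^ (2 * n + 2))⁻¹ • iprod y W)) (TW.bE (2 * n + 2)) := fun y => by
    rw [h1, ← evalL_apply, map_smul, evalL_apply, smul_eq_mul]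
  simp only [h10]
  rw [h9, integral_const_mul, h8]
  have h11 : |evalForm W (TW.bE (2 * n + 2))| = 1 := by
    rw [hW, evalForm_pull]
    refine abs_evalForm_leaf h.sp h.or hx ?_ fun i => hT _
    have h12 := (EuclideanSpace.basisFun (Fin (2 * n + 2)) ℝ).orthonormal.comp_linearIsometry T
    rw [← (EuclideanSpace.basisFun (Fin (2 * n + 2)) ℝ).coe_toBasis] at h12
    exact h12
  rw [abs_mul, abs_mul (area _), h11, mul_one, abs_of_pos (area_pos (by omega))]

end Kappa

end

end Vale.Agent.P231.S2II
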