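import Vale.Agent.P231.S2II.ValF

/-!
# P231, stage 2, S2-II (16): the sphere integrals of `b₀` over the base point, with the sign
-/

set_option maxSynthPendingDepth 3
set_option linter.unusedSectionVars false
set_option linter.unusedVariables false

open Bundle Manifold Set Filter Module MeasureTheory
open scoped ContDiff Manifold Topology

namespace Vale.Agent.P231.S2II

noncomputable section

open Vale.Agent.P234 Vale.Agent.P231 Vale.Agent.P231.Fm Vale.Agent.P231.W Vale.Agent.P231.WR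

variable {E : Type*} [NormedAddCommGroup E] [NormedSpace ℝ E]
  {M : Type*} [MetricSpace M] [ChartedSpace E M]
  [RiemannianBundle (fun x : M => TangentSpace 𝓘(ℝ, E) x)]
  {e : ∀ x : M, TangentSpace 𝓘(ℝ, E) x → M}
  [FiniteDimensional ℝ E] [IsManifold 𝓘(ℝ, E) ∞ M]
  [IsContMDiffRiemannianBundle 𝓘(ℝ, E) ∞ E (fun x : M => TangentSpace 𝓘(ℝ, E) x)]
  [CompactSpace M] [ConnectedSpace M] [IsRiemannianManifold 𝓘(ℝ, E) M]
  (F : Facts e) {D : ℝ} (hD : 0 < D) (hB : InjGE e D) (hdiam : ∀ p q : M, dist p q ≤ D)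
  {n : ℕ}

/-- the vectors of a frame, as tangent vectors at the foot of `v` -/
def wv {l : ℕ} (f : Fr e D l) (i : Fin l) : TangentSpace 𝓘(ℝ, E) (foot f.v) :=
  vec' (E := E) (f.W i)

theorem cbT_bas {l : ℕ} (f : Fr e D l) (i : Fin l) : cbT f (bas l i) = wv f i := by
  have h1 : cb (E := E) f (bas l i) = vec' (f.W i) := by
    rw [cb, Finset.sum_eq_single i]
    · rw [EuclideanSpace.basisFun_apply]
      simp
    · intro j _ hj
      rw [EuclideanSpace.basisFun_apply]
      simp [hj]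
    · intro h
      exact absurd (Finset.mem_univ i) h
  exact h1

/-- the vectors `(v, w_0, …)` of a frame -/
def vw (f : Fr e D (2 * n + 1)) : Fin (2 * n + 2) → TangentSpace 𝓘(ℝ, E) (foot f.v) :=
  Fin.cons (tv f.v) (wv f)

theorem orthonormal_vw (f : Fr e D (2 * n + 1)) : Orthonormal ℝ (vw f) := by
  have hn : ∀ i, ‖wv f i‖ = 1 := fun i => by
    rw [← cbT_bas, (cbT f).norm_map]
    exact (bas (2 * n + 1)).norm_eq_one i
  refine ⟨fun i => ?_, fun i j hij => ?_⟩
  · refine Fin.cases ?_ (fun i => ?_) i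
    · exact norm_tv f.v
    · exact hn i
  · revert hij
    refine Fin.cases ?_ (fun i => ?_) i
    · refine Fin.cases (fun h => absurd rfl h) (fun j h => ?_) j
      change inner ℝ (tv f.v) (wv f j) = (0 : ℝ)
      rw [← cbT_bas]
      exact inner_tv_cbT f _
    · refine Fin.cases (fun h => ?_) (fun j h => ?_) j
      · change inner ℝ (wv f i) (tv f.v) = (0 : ℝ)
        rw [real_inner_comm, ← cbT_bas]
        exact inner_tv_cbT f _
      · change inner ℝ (wv f i) (wv f j) = (0 : ℝ)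
        rw [← cbT_bas, ← cbT_bas, (cbT f).inner_map_map]
        exact (bas (2 * n + 1)).orthonormal.2 fun h' => h (congrArg Fin.succ h')

/-- the top degree form on the standard basis -/
theorem evalForm_tf (f : Fr e D (2 * n + 1))
    (o : TangentSpace 𝓘(ℝ, E) (foot f.v) → Fm.Lam (TangentSpace 𝓘(ℝ, E) (foot f.v))) :
    evalForm (tf f o) (bas (2 * n + 1)) = evalForm (o (tv f.v)) (vw f) := by
  have h1 : (fun i => cbT f (bas (2 * n + 1) i)) = wv f := funext fun i => cbT_bas f i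
  have h2 : evalForm (tf f o) (bas (2 * n + 1)) = evalForm (k := 2 * n + 2) (o (tv f.v))
      (Fin.cons (tv f.v) fun i : Fin (2 * n + 1) => cbT f (bas (2 * n + 1) i)) := by
    rw [tf, evalForm_pull, evalForm_apply, evalForm_apply, cont_succ]
    rfl
  rw [h2, h1]
  rfl

/-- **the sphere integral of `b₀` on a frame over the base point, with the sign**: `ε = 1` if
`(v, w_0, …)` is an oriented basis of its plane, `ε = -1` otherwise -/
theorem kf_b0P_sign {f : Fr e D (2 * n + 1)}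
    {Pi : TangentSpace 𝓘(ℝ, E) (foot f.v) →
      TangentSpace 𝓘(ℝ, E) (foot f.v) →L[ℝ] TangentSpace 𝓘(ℝ, E) (foot f.v)}
    {o : TangentSpace 𝓘(ℝ, E) (foot f.v) → Fm.Lam (TangentSpace 𝓘(ℝ, E) (foot f.v))}
    {ρ : TangentSpace 𝓘(ℝ, E) (foot f.v) → ℝ} {r₀ : ℝ}
    (hl : ∀ x y : M, dist x y = D → finrank ℝ (H775.Pl e D x y) = 2 * n + 2)
    (hJ : FE.LineP e D (foot f.v) n Pi o) (hρ : WE.Rho e D (foot f.v) ρ r₀) (a : ℝ) {ε : ℝ}
    (hε : o (tv f.v) = ε • FE.wdg (vw f)) :
    kf F hD hB hdiam (L3.b0P F hD hB hdiam (FE.FF F hD hB hdiam hl hJ hρ a)) f =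
      ε * (2 * (a * ((2 * n + 1).factorial : ℝ) * area (2 * n + 2))) := by
  have h1 : evalForm (tf f o) (bas (2 * n + 1)) = ε := by
    rw [evalForm_tf, hε, ← evalL_apply, map_smul, evalL_apply, evalForm_wdg (orthonormal_vw f),
      smul_eq_mul, mul_one]
  rw [kf_b0P, h1]
  have h2 := area_rec n
  calc _ = (ε * (a * ((2 * n + 1).factorial : ℝ))) *
        ((∫ t in (0 : ℝ)..(2 * Real.pi), Real.sin t ^ (2 * n)) * area (2 * n + 1)) := by ring
    _ = _ := by rw [h2]; ring

theorem area_four : area 4 = 2 * Real.pi ^ 2 := by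
  rw [area_eq (by norm_num)]
  have h1 : ((4 : ℕ) : ℝ) / 2 = ((1 : ℕ) : ℝ) + 1 := by norm_num
  have h2 : √Real.pi ^ 4 = Real.pi ^ 2 := by
    have h3 : √Real.pi ^ 2 = Real.pi := Real.sq_sqrt Real.pi_pos.le
    calc √Real.pi ^ 4 = (√Real.pi ^ 2) ^ 2 := by ring
      _ = _ := by rw [h3]
  rw [h1, Real.Gamma_nat_eq_factorial, h2, Nat.factorial_one]
  push_cast
  ring

theorem area_eight : area 8 = Real.pi ^ 4 / 3 := by
  rw [area_eq (by norm_num)]
  have h1 : ((8 : ℕ) : ℝ) / 2 = ((3 : ℕ) : ℝ) + 1 := by norm_num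
  have h2 : √Real.pi ^ 8 = Real.pi ^ 4 := by
    have h3 : √Real.pi ^ 2 = Real.pi := Real.sq_sqrt Real.pi_pos.le
    calc √Real.pi ^ 8 = (√Real.pi ^ 2) ^ 4 := by ring
      _ = _ := by rw [h3]
  have h4 : Nat.factorial 3 = 6 := rfl
  rw [h1, Real.Gamma_nat_eq_factorial, h2, h4]
  push_cast
  ring

theorem kappa_one (a : ℝ) : kappa 1 a = 12 * Real.pi ^ 2 * |a| := by
  have h1 : kappa 1 a = |a * ((3).factorial : ℝ)| * area 4 := rfl
  have h4 : Nat.factorial 3 = 6 := rfl
  rw [h1, area_four, h4, abs_mul]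
  norm_num
  ring

end

end Vale.Agent.P231.S2II
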